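import Crest.Agent.N49.Tw.Tw
import Crest.Agent.N49.Rf.Pid
import Crest.Agent.N49.Rf.Unit

/-!
# Row 49 (helper38): regularisation of new families on top of a regular tower (definitions)
-/

set_option autoImplicit false

open Matrix MvPolynomial Finset

noncomputable section

namespace Crest.Agent.N49.Tw

open Po

/-- the sum of the absolute values of the coefficients -/
def l1 {C : Type} (P : MvPolynomial C ℝ) : ℝ := ∑ m ∈ P.support, |coeff m P|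

/-- the symbol of `k` is trivial on the stages `< t` -/
def TS.JBS (T : TS Unit) (st : T.C → ℕ) (t : ℕ) (k : T.C → ℤ) (q : ℕ) (r : ℝ) : Prop :=
  ((T.stg st).lt t).Triv q r
    (aeval (glue (fun c => (T.stg st).lev c < t) X fun _ => (0 : MvPolynomial _ ℝ))
      ((T.stg st).thp k))

/-- **a biased symbol is trivial** (staged form) -/
def BREL (M : ℕ) : Prop := ∃ K : ℕ, ∀ (T : TS Unit) (st : T.C → ℕ) (t l b : ℕ) (κ : ℝ)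
  (k : T.C → ℤ), 2 ≤ b → T.Ok → T.K = 1 → T.Stg st M → Fintype.card T.C ≤ 2 ^ b →
  1 / 2 ^ b ≤ κ → κ ≤ 1 → T.Sem st t (b ^ K) (1 / 2 ^ b ^ K) (1 / 2 ^ b ^ K) →
  (∀ F, k F ≠ 0 → st F = t ∧ T.lev F = l) →
  1 / 2 ^ b ≤ T.sbS st t (fun _ : Fin l => ()) (fun _ => κ) k →
  ∃ q : ℕ, 1 ≤ q ∧ q ≤ 2 ^ b ^ K ∧ T.JBS st t k q (2 ^ b ^ K)

/-- regularity of the first stages gives the Master estimate for them -/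
def SEMS (M C : ℕ) : Prop := ∀ (T : TS Unit) (st : T.C → ℕ) (t n : ℕ) (a η : ℝ), t ≤ M →
  T.Stg st M → 0 < η → η ≤ 1 → T.RgS st t C n a η → T.Sem st (t + 1) n a η

/-- new families on top of `T0`, which is narrowed by the factor `μ` -/
structure Nw (T0 : TS Unit) where
  N : Type
  [fin : Fintype N]
  [dec : DecidableEq N]
  lv : N → ℕ
  Φ : N → MvPolynomial (T0.C ⊕ N) ℝ
  μ : ℝ

attribute [instance] Nw.fin Nw.dec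

namespace Nw

variable {T0 : TS Unit} (E : Nw T0)

/-- all the errors -/
def Φa : T0.C ⊕ E.N → MvPolynomial (T0.C ⊕ E.N) ℝ :=
  Sum.elim (fun c => E.μ⁻¹ • rename .inl (T0.Φ c)) E.Φ

/-- the tower -/
def T : TS Unit where
  C := T0.C ⊕ E.N
  deg := Sum.elim T0.deg fun n => Finsupp.single () (E.lv n)
  Φ := E.Φa
  K := 1

/-- the levels -/
def lev : T0.C ⊕ E.N → ℕ := Sum.elim T0.lev E.lv

/-- the stages -/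
def st (st0 : T0.C → ℕ) (M0 s : ℕ) : T0.C ⊕ E.N → ℕ :=
  Sum.elim st0 fun n => M0 * (s + 1) ^ E.lv n

/-- the linear part in the new coordinates -/
def A : Matrix E.N E.N ℝ := Matrix.of fun n n' => coeff (Finsupp.single (.inr n') 1) (E.Φ n)

/-- the number of new families of level `l` -/
def R (l : ℕ) : ℕ := #{n | E.lv n = l}

/-- their cost -/
def ct (l : ℕ) : ℝ :=
  Po.th ((E.A⁻¹ * E.A⁻¹ᵀ).submatrix (Subtype.val : {n // E.lv n = l} → E.N) Subtype.val) 0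

/-- well-formed data -/
structure Wf (s : ℕ) : Prop where
  pos : 0 < E.μ
  le : E.μ ≤ 1
  lv : ∀ n, 1 ≤ E.lv n ∧ E.lv n ≤ s
  hom : ∀ n, (E.Φ n).IsWeightedHomogeneous E.lev (E.lv n)
  det : E.A.det ≠ 0

/-- the substitution: dilation of the old coordinates, `ρ` on the new ones -/
def sb (E' : Nw T0) (ν : ℕ) (ρ : E.N → MvPolynomial (T0.C ⊕ E'.N) ℤ) :
    T0.C ⊕ E.N → MvPolynomial (T0.C ⊕ E'.N) ℤ :=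
  Sum.elim (fun c => ν ^ T0.lev c • X (.inl c)) ρ

/-- the errors of `E` at `sb` are the polynomials `G` in the errors of `E'` -/
structure Hom (s : ℕ) (E' : Nw T0) (ν : ℕ) (x : ℝ) (ρ : E.N → MvPolynomial (T0.C ⊕ E'.N) ℤ)
    (G : E.N → MvPolynomial (T0.C ⊕ E'.N) ℝ) : Prop where
  one : 1 ≤ ν
  mu : ν ^ s * E'.μ ≤ E.μ
  hρ : ∀ n, (ρ n).IsWeightedHomogeneous E'.lev (E.lv n)
  hG : ∀ n, (G n).IsWeightedHomogeneous E'.lev (E.lv n)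
  eq : ∀ n, aeval (fun c => map (Int.castRingHom ℝ) (E.sb E' ν ρ c)) (E.Φ n) = aeval E'.Φa (G n)
  l1 : ∀ n, l1 (G n) ≤ x
  R : ∀ l, E'.R l ≤ E.R l

end Nw

/-- the old tower -/
structure Old (T0 : TS Unit) (st0 : T0.C → ℕ) (M0 s : ℕ) : Prop where
  ok : T0.Ok
  K : T0.K = 1
  stg : T0.Stg st0 M0
  lev : ∀ c, T0.lev c ≤ s
  one : 1 ≤ M0

/-- **regularisation of the new families** -/
def REGNEW (s M0 C : ℕ) : Prop := ∃ K : ℕ, ∀ (T0 : TS Unit) (st0 : T0.C → ℕ) (E : Nw T0) (b : ℕ),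
  2 ≤ b → Old T0 st0 M0 s → E.Wf s → 1 / 2 ^ b ≤ E.μ → Fintype.card T0.C ≤ 2 ^ b →
  Fintype.card E.N ≤ b → (∀ l, E.ct l ≤ 2 ^ b) →
  T0.RgS st0 M0 C (b ^ K) (1 / 2 ^ b ^ K) (1 / 2 ^ b ^ K) →
  ∃ (E' : Nw T0) (ν : ℕ) (ρ : E.N → MvPolynomial (T0.C ⊕ E'.N) ℤ)
    (G : E.N → MvPolynomial (T0.C ⊕ E'.N) ℝ), E'.Wf s ∧
    E.Hom s E' ν ((Fintype.card E.N + 1) ^ (s * Fintype.card E.N)) ρ G ∧
    1 / 2 ^ b ^ K ≤ E'.μ ∧ (∀ l, E'.ct l ≤ 2 ^ b ^ K) ∧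
    E'.T.RgS (E'.st st0 M0 s) (M0 * (s + 1) ^ s) C b (1 / 2 ^ b) (1 / 2 ^ b)

/-! ### leaves -/

/-- the structure of the tower -/
def NSTG : Prop := ∀ (s M0 : ℕ) (T0 : TS Unit) (st0 : T0.C → ℕ) (E : Nw T0), Old T0 st0 M0 s →
  E.Wf s → Old E.T (E.st st0 M0 s) (M0 * (s + 1) ^ s) s ∧ E.T.lev = E.lev ∧
  (E.T.stg (E.st st0 M0 s)).A = fromBlocks (E.μ⁻¹ • (T0.stg st0).A) 0 0 E.A ∧
  (∀ t ≤ M0, (E.T.stg (E.st st0 M0 s)).R t = (T0.stg st0).R t ∧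
    (E.T.stg (E.st st0 M0 s)).ct t ≤ E.μ⁻¹ ^ (T0.stg st0).R t * (T0.stg st0).ct t) ∧
  (∀ l, 1 ≤ l → (E.T.stg (E.st st0 M0 s)).R (M0 * (s + 1) ^ l) = E.R l ∧
    (E.T.stg (E.st st0 M0 s)).ct (M0 * (s + 1) ^ l) = E.ct l) ∧
  ∀ t, M0 < t → (∀ l, t ≠ M0 * (s + 1) ^ l) →
    (E.T.stg (E.st st0 M0 s)).R t = 0 ∧ (E.T.stg (E.st st0 M0 s)).ct t = 1

/-- the old stages stay regular -/
def NOLD : Prop := ∀ (s M0 : ℕ) (T0 : TS Unit) (st0 : T0.C → ℕ) (E : Nw T0) (t : ℕ) (κ : ℕ → ℝ)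
  (R τ : ℝ), Old T0 st0 M0 s → E.Wf s → t ≤ M0 → (∀ j, 0 < κ j) → T0.SymS st0 t κ R τ →
  E.T.SymS (E.st st0 M0 s) t (fun j => κ j / E.μ ^ 2) (E.μ ^ 2 * R) τ

/-- the trivial symbol as a homogeneous identity -/
def NHJ : Prop := ∀ (s M : ℕ) (T : TS Unit) (st : T.C → ℕ) (t l q : ℕ) (r : ℝ) (k : T.C → ℤ),
  Old T st M s → 0 ≤ r → (∀ F, k F ≠ 0 → st F = t ∧ T.lev F = l) → T.JBS st t k q r →
  ∃ (I : MvPolynomial T.C ℤ) (g : MvPolynomial T.C ℝ), I.IsWeightedHomogeneous T.lev l ∧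
    g.IsWeightedHomogeneous T.lev l ∧ (∀ c ∈ I.vars, st c < t) ∧ (∀ c ∈ g.vars, st c < t) ∧
    l1 g ≤ (Fintype.card T.C + 1) ^ l * r ∧
    (T.stg st).thp k = (q : ℝ)⁻¹ • map (Int.castRingHom ℝ) I + aeval T.Φ g

/-- composition -/
def NCMP : Prop := ∀ (s M0 : ℕ) (T0 : TS Unit) (st0 : T0.C → ℕ) (E E' E'' : Nw T0) (ν ν' : ℕ)
  (x x' : ℝ) ρ G ρ' G', Old T0 st0 M0 s → E.Wf s → E'.Wf s → E''.Wf s → 1 ≤ x' →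
  E.Hom s E' ν x ρ G → E'.Hom s E'' ν' x' ρ' G' →
  ∃ ρ'' G'', E.Hom s E'' (ν * ν') (x * x' ^ s) ρ'' G''

/-- one event: `∑ k0 n * X n - ∑ (k0 A⁻¹) n * Φ n = I / ν + g (Φ)` -/
def NEV : Prop := ∀ (s : ℕ) (T0 : TS Unit) (E : Nw T0) (l ν : ℕ) (m : ℝ) (k b : E.N → ℤ)
  (I : MvPolynomial (T0.C ⊕ E.N) ℤ) (g : MvPolynomial (T0.C ⊕ E.N) ℝ), T0.Ok →
  (∀ c, T0.lev c ≤ s) → E.Wf s → (∀ n, k n ≠ 0 → E.lv n = l) → (∀ n, b n ≠ 0 → E.lv n = l) →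
  k ⬝ᵥ b = 1 → 1 ≤ ν → I.IsWeightedHomogeneous E.lev l → g.IsWeightedHomogeneous E.lev l →
  (∀ n, .inr n ∈ I.vars → E.lv n < l) → (∀ n, .inr n ∈ g.vars → E.lv n < l) →
  (∑ n, (k n : ℝ) • X (.inr n) - ∑ n, (zc k ᵥ* E.A⁻¹) n • E.Φ n =
    (ν : ℝ)⁻¹ • map (Int.castRingHom ℝ) I + aeval E.Φa g) →
  0 < m → ν ^ s * m ≤ 1 → ν ^ s * m * l1 g ≤ √(qf (E.A⁻¹ * E.A⁻¹ᵀ) (zc k)) →
  ∃ (E' : Nw T0) (ρ : E.N → MvPolynomial (T0.C ⊕ E'.N) ℤ) (G : E.N → MvPolynomial (T0.C ⊕ E'.N) ℝ),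
    E'.Wf s ∧ E.Hom s E' ν (Fintype.card E.N) ρ G ∧ E'.μ = m * E.μ ∧
    Fintype.card E'.N + 1 = Fintype.card E.N ∧
    (∀ j < l, E'.ct j ≤ m⁻¹ ^ E.R j * E.ct j) ∧
    E'.ct l ≤ √(qf (E.A⁻¹ * E.A⁻¹ᵀ) (zc k)) * E.ct l ∧ ∀ j, l < j → E'.ct j = E.ct j

/-- the data of an event -/
def NPR : Prop := ∀ (s M0 : ℕ) (T0 : TS Unit) (st0 : T0.C → ℕ) (E : Nw T0) (l q : ℕ) (r : ℝ)
  (k : E.T.C → ℤ), Old T0 st0 M0 s → E.Wf s → 1 ≤ l → 1 ≤ q → 0 ≤ r → k ≠ 0 →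
  (∀ F, k F ≠ 0 → E.st st0 M0 s F = M0 * (s + 1) ^ l ∧ E.T.lev F = l) →
  E.T.JBS (E.st st0 M0 s) (M0 * (s + 1) ^ l) k q r →
  ∃ (d : ℕ) (k0 b : E.N → ℤ) (I : MvPolynomial (T0.C ⊕ E.N) ℤ) (g : MvPolynomial (T0.C ⊕ E.N) ℝ),
    1 ≤ d ∧ (d : ℝ) ^ 2 ≤ qf (E.T.stg (E.st st0 M0 s)).D (zc k) * E.ct l ^ 2 ∧
    1 ≤ E.ct l ^ 2 * qf (E.A⁻¹ * E.A⁻¹ᵀ) (zc k0) ∧
    qf (E.A⁻¹ * E.A⁻¹ᵀ) (zc k0) ≤ qf (E.T.stg (E.st st0 M0 s)).D (zc k) ∧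
    (∀ n, k0 n ≠ 0 → E.lv n = l) ∧ (∀ n, b n ≠ 0 → E.lv n = l) ∧ k0 ⬝ᵥ b = 1 ∧
    I.IsWeightedHomogeneous E.lev l ∧ g.IsWeightedHomogeneous E.lev l ∧
    (∀ n, .inr n ∈ I.vars → E.lv n < l) ∧ (∀ n, .inr n ∈ g.vars → E.lv n < l) ∧
    (∑ n, (k0 n : ℝ) • X (.inr n) - ∑ n, (zc k0 ᵥ* E.A⁻¹) n • E.Φ n =
      ((d * q : ℕ) : ℝ)⁻¹ • map (Int.castRingHom ℝ) I + aeval E.Φa g) ∧
    l1 g ≤ (Fintype.card (T0.C ⊕ E.N) + 1) ^ l * r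

/-- the linear algebra of a slice -/
def NLA : Prop := ∀ (d : Type) [Fintype d] [DecidableEq d] (A : Matrix d d ℝ) (k b : d → ℤ),
  A.det ≠ 0 → k ⬝ᵥ b = 1 → ∃ (r : ℕ) (B : Matrix d (Fin r) ℤ) (O : Matrix (Fin r) d ℝ),
    r + 1 = Fintype.card d ∧ k ᵥ* B = 0 ∧ (O * A * rl B).det ≠ 0 ∧ (∀ j n, |O j n| ≤ 1) ∧
    0 < qf (A⁻¹ * A⁻¹ᵀ) (zc k) ∧ qf (A⁻¹ * A⁻¹ᵀ) (zc k) = ∑ n, (zc k ᵥ* A⁻¹) n ^ 2 ∧
    Oᵀ * O + (qf (A⁻¹ * A⁻¹ᵀ) (zc k))⁻¹ • vecMulVec (zc k ᵥ* A⁻¹) (zc k ᵥ* A⁻¹) = 1 ∧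
    Po.th ((O * A * rl B)⁻¹ * (O * A * rl B)⁻¹ᵀ) 0 ≤
      √(qf (A⁻¹ * A⁻¹ᵀ) (zc k)) * Po.th (A⁻¹ * A⁻¹ᵀ) 0

/-- every staged tower has a homogeneous copy with unit covariance -/
def NUN : Prop := ∀ (T : TS Unit) (st : T.C → ℕ) (M s : ℕ), T.Stg st M → (∀ c, T.lev c ≤ s) →
  1 ≤ M → ∃ B : Matrix T.C T.C ℝ, Old (T.top.un B) st M s ∧ (T.top.un B).D = T.D ∧
    ((T.top.un B).stg st).D = (T.stg st).D ∧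
    (∀ M' C n a η, T.RgS st M' C n a η → (T.top.un B).RgS st M' C n a η) ∧
    ∀ (τ : Type) (S : Sh Unit τ) (Ψ : T.Twd S), S.Ok → T.Adm S st Ψ →
      (T.top.un B).Adm S st (fun F : T.C => ∑ F', B F F' • Ψ F') ∧
      ∀ y, ((T.top.un B).tw S fun F : T.C => ∑ F', B F F' • Ψ F').wt y = (T.tw S Ψ).wt y

end Crest.Agent.N49.Tw

end
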