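import Crest.Agent.N49.Rn.Defs
import Crest.Agent.N49.Tw.Api
import Crest.Agent.N49.Tw.Chg
import Crest.Agent.N49.Tw.ConM

/-!
# Row 49 (helper67): homogeneous copies with unit covariance of staged towers
-/

set_option autoImplicit false

open Matrix MvPolynomial Finset

noncomputable section

namespace Crest.Agent.N49.Tw

open Po

namespace TS

section
variable {σ : Type} {T : TS σ} {B : Matrix T.C T.C ℝ}

theorem un_coeff (c : T.C) (m : T.C →₀ ℕ) :
    coeff m ((T.un B).Φ c) = ∑ c', B c c' * coeff m (T.Φ c') := by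
  change coeff m (∑ c', MvPolynomial.C (B c c') * T.Φ c') = _
  simp only [coeff_sum, coeff_C_mul]

theorem un_det (hK : T.K.PosDef) (e : Bᵀ * B = T.K⁻¹) : B.det ≠ 0 :=
  fun z => hK.inv.det_pos.ne' (by rw [← e, det_mul, z, mul_zero])

theorem un_K (hK : T.K.PosDef) (e : Bᵀ * B = T.K⁻¹) : T.K = B⁻¹ * B⁻¹ᵀ := by
  rw [transpose_nonsing_inv, ← Matrix.mul_inv_rev, e, inv_inv' hK]

theorem un_K' (hK : T.K.PosDef) (e : Bᵀ * B = T.K⁻¹) : B * T.K * Bᵀ = 1 := by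
  have u := (un_det hK e).isUnit
  rw [un_K hK e, ← Matrix.mul_assoc, mul_nonsing_inv _ u, Matrix.one_mul, ← transpose_mul,
    mul_nonsing_inv _ u, transpose_one]

theorem Tri.un (h : T.Tri) (hS : Rw.Blk T.lev B) (e : Bᵀ * B = T.K⁻¹) : (T.un B).Tri := by
  refine ⟨fun (c : T.C) (m : T.C →₀ ℕ) hm => ?_, h.ne, ?_, PosDef.one, fun (c c' : T.C) n => ?_⟩
  · obtain ⟨j, -, hj⟩ := exists_ne_zero_of_sum_ne_zero
      fun z => mem_support_iff.1 hm ((un_coeff c m).trans z)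
    have f : T.lev c = T.lev j := by_contra fun f => hj (by simp [hS c j f])
    change Finsupp.weight T.lev m ≤ T.lev c
    exact f ▸ h.tri j m (mem_support_iff.2 (right_ne_zero_of_mul hj))
  · rw [un_A hS]
    change (B * T.A).det ≠ 0
    rw [det_mul]
    exact mul_ne_zero (un_det h.pd e) h.det
  · rw [(by_contra fun f => n (one_apply_ne f) : c = c')]

theorem Tri.un_D (h : T.Tri) (hS : Rw.Blk T.lev B) (e : Bᵀ * B = T.K⁻¹) : (T.un B).D = T.D := by
  have a : ∀ X : Matrix T.C T.C ℝ, X = B * T.A → X⁻¹ * 1 * X⁻¹ᵀ = T.D := by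
    rintro _ rfl
    rw [D, un_K h.pd e, Matrix.mul_inv_rev, transpose_mul, Matrix.mul_one]
    simp only [Matrix.mul_assoc]
  exact a _ (un_A hS)
end

variable {T : TS Unit} {st : T.C → ℕ} {M : ℕ} {B : Matrix T.C T.C ℝ}

theorem coeff_tΦ (c : T.C) (m : T.C →₀ ℕ) : coeff m (T.tΦ c) =
    if Finsupp.weight T.lev m = T.lev c then coeff m (T.Φ c) else 0 :=
  coeff_weightedHomogeneousComponent _ _ _

theorem Stg.top_A (h : T.Stg st M) : (T.top.stg st).A = (T.stg st).A := by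
  refine Matrix.ext fun (c : T.C) (c' : T.C) => ?_
  rw [stg_A (T := T.top), stg_A]
  split_ifs with e
  · exact (coeff_tΦ c _).trans (if_pos ((Finsupp.weight_single _ _ _).trans ((one_smul _ _).trans (h.lev c c' e).symm)))
  · rfl

theorem Stg.top_tri (h : T.Stg st M) : (T.top.stg st).Tri :=
  stg_tri (T := T.top) (fun (c : T.C) (m : T.C →₀ ℕ) hm => h.wt c (mem_support_iff.2 fun z =>
    mem_support_iff.1 hm ((coeff_tΦ (T := T) c m).trans (by simp [z])))) (fun c => (h.pos c).ne')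
    (by rw [h.top_A]; exact h.tri.det) h.tri.pd fun _ _ => h.blk

theorem Stg.un_lev (h : T.Stg st M) (hB : Rw.Blk st B) {c c' : T.C} (z : B c c' ≠ 0) :
    T.lev c = T.lev c' := h.lev c c' (by_contra fun f => z (hB c c' f))

theorem un_top_coeff (c : T.C) (m : T.C →₀ ℕ) :
    coeff m ((T.top.un B).Φ c) = ∑ c', B c c' * coeff m (T.tΦ c') := un_coeff (T := T.top) c m

theorem Stg.un_ok (h : T.Stg st M) (hB : Rw.Blk st B) (e : Bᵀ * B = T.K⁻¹) : (T.top.un B).Ok where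
  toTri := h.cl.1.top.un (fun _ _ f => by_contra fun z => f (h.un_lev hB z)) e
  hom := fun (c : T.C) (m : T.C →₀ ℕ) hm => by
    obtain ⟨j, -, hj⟩ := exists_ne_zero_of_sum_ne_zero fun z => hm ((un_top_coeff c m).trans z)
    refine unit_ext (a := Finsupp.weight T.deg m) (b := T.deg c) ?_
    rw [← weight_hom]
    exact (T.top_hom j (right_ne_zero_of_mul hj)).trans (h.un_lev hB (left_ne_zero_of_mul hj)).symm

theorem Stg.un_stg (h : T.Stg st M) (hB : Rw.Blk st B) (e : Bᵀ * B = T.K⁻¹) :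
    (T.top.un B).Stg st M :=
  ⟨(h.un_ok hB e).cl, h.top_tri.un (T := T.top.stg st) (by rwa [stg_lev' (T := T.top)]) e,
    h.lev, h.le⟩

theorem Stg.un_D (h : T.Stg st M) (hB : Rw.Blk st B) (e : Bᵀ * B = T.K⁻¹) :
    ((T.top.un B).stg st).D = (T.stg st).D :=
  (h.top_tri.un_D (T := T.top.stg st) (by rwa [stg_lev' (T := T.top)]) e).trans (by
    unfold D; rw [h.top_A]; rfl)

variable {τ : Type} {S : Sh Unit τ} {Ψ : T.Twd S}

theorem un_tw_coeff (F : T.C) (m : T.C →₀ ℕ) :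
    coeff m (∑ F', B F F' • Ψ F') = ∑ F', B F F' • coeff m (Ψ F') := by
  simp only [coeff_sum, coeff_smul]

theorem Adm.un (a : T.Adm S st Ψ) (h : T.Stg st M) (hB : Rw.Blk st B) :
    (T.top.un B).Adm S st fun F : T.C => ∑ F', B F F' • Ψ F' where
  gr := fun (F : T.C) (m : T.C →₀ ℕ) => by
    change (coeff m (∑ F', B F F' • Ψ F')).IsWeightedHomogeneous S.dg
      (T.lev F - Finsupp.weight T.lev m)
    rw [un_tw_coeff]
    refine IsWeightedHomogeneous.sum _ _ _ fun F' _ => ?_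
    by_cases z : B F F' = 0
    · rw [z, zero_smul]; exact isWeightedHomogeneous_zero _ _ _
    · rw [h.un_lev hB z, smul_eq_C_mul]; exact (a.gr F' m).C_mul _
  le := fun (F : T.C) (m : T.C →₀ ℕ) hm => by
    have : coeff m (∑ F', B F F' • Ψ F') ≠ 0 := mem_support_iff.1 hm
    rw [un_tw_coeff] at this
    obtain ⟨j, -, hj⟩ := exists_ne_zero_of_sum_ne_zero this
    have z : B F j ≠ 0 := fun z => hj (by rw [z, zero_smul])
    have := a.le j m (mem_support_iff.2 fun z => hj (by rw [z, smul_zero]))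
    rw [← h.un_lev hB z, ← (by_contra fun f => z (hB F j f) : st F = st j)] at this
    exact this
  top := fun (F : T.C) (m : T.C →₀ ℕ) (hm : Finsupp.weight T.lev m = T.lev F) => by
    refine ((un_tw_coeff F m).trans ?_).trans (congrArg _ (un_top_coeff F m)).symm
    rw [map_sum]
    refine sum_congr rfl fun j _ => ?_
    by_cases z : B F j = 0
    · simp [z]
    · rw [h.un_lev hB z] at hm
      rw [a.top j m hm, coeff_tΦ, if_pos hm, smul_eq_C_mul, map_mul]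

/-- new errors and a new covariance -/
def rpl (T : TS Unit) (Φ : T.C → MvPolynomial T.C ℝ) (K : Matrix T.C T.C ℝ) : TS Unit where
  C := T.C
  deg := T.deg
  Φ := Φ
  K := K

theorem un_cf (bl : T.Bl B) (y : T.Cw S → ℝ) (p : T.Cw S) :
    S.cf ℝ p.1.2 (eval (T.Yw S y) (∑ F', B p.1.1 F' • Ψ F')) =
      (T.kw S B 1 *ᵥ (T.tw S Ψ).u y) p := by
  change _ = ∑ q : T.Cw S, B p.1.1 q.1.1 * (1 : Matrix S.W S.W ℝ) p.1.2 q.1.2 * (T.tw S Ψ).u y q
  simp only [tw_u]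
  rw [← sum_subtype (p := fun x : T.C × S.W => S.cd x.2 = T.deg x.1) 
    (univ.filter fun x : T.C × S.W => S.cd x.2 = T.deg x.1) (by simp) fun x => B p.1.1 x.1 * (1 : Matrix S.W S.W ℝ) p.1.2 x.2 *
      S.cf ℝ x.2 (eval (T.Yw S y) (Ψ x.1)), sum_filter_of_ne fun x _ z =>
    (one_cd _ _ (right_ne_zero_of_mul (left_ne_zero_of_mul z))).symm.trans
      (p.2.trans (bl _ _ (left_ne_zero_of_mul (left_ne_zero_of_mul z)))),
    Fintype.sum_prod_type, map_sum, map_sum]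
  refine sum_congr rfl fun F _ => ?_
  rw [← algebraMap_smul (MvPolynomial S.W ℝ), smul_eval, algebraMap_eq, Sh.cf_C_mul]
  simp [one_apply]

theorem Stg.rpl_iso (h : T.Stg st M) (hB : Rw.Blk st B) (e : Bᵀ * B = T.K⁻¹)
    (Φ : T.C → MvPolynomial T.C ℝ) (t1 : (T.lw S st Ψ).Tri)
    (t2 : ((T.rpl Φ 1).lw S st fun F : T.C => ∑ F', B F F' • Ψ F').Tri) : (T.lw S st Ψ).Iso
      ((T.rpl Φ 1).lw S st fun F : T.C => ∑ F', B F F' • Ψ F')
      ((1 : Matrix (T.Cw S) (T.Cw S) ℤ) *ᵥ ·) (1 : Matrix (T.Cw S) (T.Cw S) ℤ) (T.kw S B 1)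
      (1 : Matrix (T.Cw S) (T.Cw S) ℤ) := by
  have bl : T.Bl B := fun F G z => unit_ext (h.un_lev hB z)
  refine ⟨Mor.of_lin t1 t2
    (fun (p q : T.Cw S) z => ?_) (fun (p q : T.Cw S) z => ?_) (fun y => ?_) ?_,
    Matrix.mul_one _, Matrix.mul_one _⟩
  · obtain rfl : p = q := by_contra fun f => z (one_apply_ne f)
    exact (lw_lev (T := T.rpl Φ 1) p).trans (lw_lev p).symm
  · refine ((lw_lev (T := T.rpl Φ 1) p).trans ?_).trans (lw_lev q).symm
    exact by_contra fun f => left_ne_zero_of_mul z (hB _ _ f)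
  · refine funext fun p : T.Cw S => ?_
    refine (tw_u (T := T.rpl Φ 1) (S := S) (Ψ := fun F : T.C => ∑ F', B F F' • Ψ F')
      (zc ((1 : Matrix (T.Cw S) (T.Cw S) ℤ) *ᵥ y)) p).trans ?_
    have e1 : (1 : Matrix (T.Cw S) (T.Cw S) ℤ) *ᵥ y = y := one_mulVec _
    exact (congrArg (fun z : T.Cw S → ℤ => S.cf ℝ p.1.2 (eval (T.Yw S (zc z))
      (∑ F', B p.1.1 F' • Ψ F'))) e1).trans (un_cf bl (zc y) p)
  · change T.kw S 1 S.K = T.kw S B 1 * T.kw S T.K S.K * (T.kw S B 1)ᵀ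
    rw [kw_mul bl one_cd, kw_transpose, mul_kw bl one_cd, un_K' (T := T) h.tri.pd e]
    simp

theorem Stg.rpl_wt (h : T.Stg st M) (hB : Rw.Blk st B) (e : Bᵀ * B = T.K⁻¹)
    (Φ : T.C → MvPolynomial T.C ℝ) (t1 : (T.lw S st Ψ).Tri)
    (t2 : ((T.rpl Φ 1).lw S st fun F : T.C => ∑ F', B F F' • Ψ F').Tri) (y : T.Cw S → ℤ) :
    ((T.rpl Φ 1).tw S fun F : T.C => ∑ F', B F F' • Ψ F').wt y = (T.tw S Ψ).wt y :=
  (congrArg ((T.rpl Φ 1).lw S st fun F : T.C => ∑ F', B F F' • Ψ F').wt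
    (one_mulVec y).symm).trans ((h.rpl_iso hB e Φ t1 t2).wt y)

theorem sbS_lw (X : TS Unit) (s : X.C → ℕ) (t : ℕ) {l : ℕ} (col : Fin l → Unit) (κ : ℕ → ℝ)
    (k : X.C → ℤ) {Ψ : X.Twd (Sh.sym col κ)} (e : X.tw0 _ = Ψ) : X.sbS s t col κ k =
      (X.lw (Sh.sym col κ) s Ψ).bias t
        fun p => if (Sh.sym col κ).dg p.1.2 = l then k p.1.1 else 0 := by
  subst e
  have : (X.tw (Sh.sym col κ) (X.tw0 _)).Φ = (X.sh (Sh.sym col κ)).Φ :=
    funext fun p => congrArg ((Sh.sym col κ).cf _ p.1.2) (eval₂_tw0 _ _)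
  exact congrArg (fun Φ => (((X.sh (Sh.sym col κ)).setΦ Φ).stg fun p => s p.1.1).bias t
    fun p => if (Sh.sym col κ).dg p.1.2 = l then k p.1.1 else 0) this.symm

theorem Stg.rpl_bias (h : T.Stg st M) (hB : Rw.Blk st B) (e : Bᵀ * B = T.K⁻¹)
    (Φ : T.C → MvPolynomial T.C ℝ) (t1 : (T.lw S st Ψ).Tri)
    (t2 : ((T.rpl Φ 1).lw S st fun F : T.C => ∑ F', B F F' • Ψ F').Tri) (t : ℕ)
    (k : T.Cw S → ℤ) (hk : ∀ p, k p ≠ 0 → st p.1.1 = t) :
    ((T.rpl Φ 1).lw S st fun F : T.C => ∑ F', B F F' • Ψ F').bias t k =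
      (T.lw S st Ψ).bias t k :=
  ((h.rpl_iso hB e Φ t1 t2).bias t (k := k) fun p z => by_contra fun w =>
    (z.trans_eq (lw_lev (T := T.rpl Φ 1) p)).ne' (hk p w)).symm.trans
      (congrArg _ (vecMul_one k))

theorem Stg.un_tw0 (h : T.Stg st M) (hB : Rw.Blk st B) (e : S.ε = 0) :
    (T.top.un B).tw0 S = fun F : T.C => ∑ F', B F F' • T.tw0 S F' := by
  refine funext fun F : T.C => MvPolynomial.ext _ _ fun m : T.C →₀ ℕ => ?_
  refine (coeff_tw0 (T := T.top.un B) F m).trans (Eq.trans ?_ (un_tw_coeff F m).symm)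
  refine (congrArg (· • S.el (R := ℝ) S.ε ^ (T.lev F - Finsupp.weight T.lev m))
    (un_top_coeff F m)).trans ?_
  rw [sum_smul]
  refine sum_congr rfl fun j _ => ?_
  by_cases z : B F j = 0
  · simp [z]
  · rw [coeff_tw0, h.un_lev hB z, coeff_tΦ, smul_smul]
    split_ifs with k
    · rfl
    · by_cases w : coeff m (T.Φ j) = 0
      · rw [w]
      · have := h.cl.1.tri j m (mem_support_iff.2 w)
        rw [e, show S.el (R := ℝ) 0 = 0 by simp [Sh.el], zero_pow (by omega), smul_zero, smul_zero]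

theorem Stg.un_sbS (h : T.Stg st M) (hB : Rw.Blk st B) (e : Bᵀ * B = T.K⁻¹) (t : ℕ) {l : ℕ}
    (col : Fin l → Unit) {κ : ℕ → ℝ} (hκ : ∀ j, 0 < κ j) {k : T.C → ℤ}
    (hk : ∀ F, k F ≠ 0 → st F = t) : (T.top.un B).sbS st t col κ k = T.sbS st t col κ k := by
  have o : (Sh.sym col κ).Ok := Sh.sym_ok fun j _ => hκ j
  have a1 := sbS_lw (T.top.un B) st t col κ k (h.un_tw0 (S := Sh.sym col κ) hB Sh.sym_ε)
  have a2 := sbS_lw T st t col κ k rfl
  have a3 := h.rpl_bias (S := Sh.sym col κ) hB e (T.top.un B).Φ (lw_tri h (h.adm o) o)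
    (lw_tri (h.un_stg hB e) ((h.adm o).un h hB) o) t
    (fun p => if (Sh.sym col κ).dg p.1.2 = l then k p.1.1 else 0)
    fun p w => hk _ fun z => w (by simp [z])
  rw [a1, a2]
  exact a3

end TS

open TS in
theorem nun : NUN := fun T st M s h hs hM => by
  obtain ⟨B, hB, e⟩ := exists_blk_sqrt (lev := st) h.tri.pd.inv
    (blk_inv fun c c' f => by_contra fun z => f (h.blk z))
  have hD := h.un_D hB e
  refine ⟨B, ⟨h.un_ok hB e, rfl, h.un_stg hB e, hs, hM⟩,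
    (h.cl.1.top.un_D (fun _ _ f => by_contra fun z => f (h.un_lev hB z)) e).trans T.top_D, hD,
    fun M' C n a η ⟨κ, lb, r1, r2, r3⟩ => ⟨κ, lb, r1, r2, fun t ht l col k k0 hk hq => ?_⟩,
    fun τ S Ψ o a => ⟨a.un h hB, fun y => ?_⟩⟩
  · have c : ((T.top.un B).stg st).ct = (T.stg st).ct := by unfold ct; rw [hD]; rfl
    have L : (T.top.un B).LbS st M' C n lb η t = T.LbS st M' C n lb η t := by
      unfold LbS; rw [c]; rfl
    rw [L, hD] at hq
    rw [L, h.un_sbS hB e t col (fun j => (r1 t (mem_Icc.1 ht).2).1.trans_le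
      ((r1 t (mem_Icc.1 ht).2).2.2 j).1) fun F z => (hk F z).1]
    exact r3 t ht l col k k0 hk hq
  · exact h.rpl_wt hB e (T.top.un B).Φ (lw_tri h a o) (lw_tri (h.un_stg hB e) (a.un h hB) o) y

end Crest.Agent.N49.Tw

end
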