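import Crest.Agent.N49.Rn.Defs
import Crest.Agent.N49.Tw.Api

/-! # Row 49 (helper29): the tower of the new families is staged -/

set_option autoImplicit false

open Matrix MvPolynomial Finset

noncomputable section

namespace Crest.Agent.N49.Tw

open Po TS

namespace Ns

theorem hom_iff {C : Type} (dg : C → Unit →₀ ℕ) (P : MvPolynomial C ℝ) (d : Unit →₀ ℕ) :
    P.IsWeightedHomogeneous dg d ↔ P.IsWeightedHomogeneous (fun c => (dg c).degree) d.degree :=
  forall₂_congr fun m _ => by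
    rw [weight_hom Finsupp.degree]; exact ⟨congrArg _, unit_ext⟩

theorem wt_geo {C : Type} {d w : C → ℕ} {M x : ℕ} (hx : 2 ≤ x) (hd : ∀ c, 1 ≤ d c)
    (hw : ∀ c, w c ≤ M * x ^ d c) (m : C →₀ ℕ) :
    Finsupp.weight w m ≤ M * x ^ Finsupp.weight d m := by
  let G : AddSubmonoid (ℕ × ℕ) :=
    { carrier := {p | p.2 ≤ M * x ^ p.1 ∧ (p.1 = 0 → p.2 = 0)}
      zero_mem' := ⟨Nat.zero_le _, fun _ => rfl⟩
      add_mem' := by
        rintro ⟨a, u⟩ ⟨b, v⟩ ⟨h1, h2⟩ ⟨h3, h4⟩
        refine ⟨?_, fun e => by simp only [Prod.mk_add_mk] at *; omega⟩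
        simp only [Prod.mk_add_mk] at *
        rcases Nat.eq_zero_or_pos a with rfl | ha
        · simpa [h2 rfl] using h3
        rcases Nat.eq_zero_or_pos b with rfl | hb
        · simpa [h4 rfl] using h1
        have := Nat.add_le_mul (hx.trans (Nat.le_self_pow ha.ne' x))
          (hx.trans (Nat.le_self_pow hb.ne' x))
        rw [pow_add]; nlinarith }
  have : Finsupp.weight (fun c => (d c, w c)) m ∈ G := by
    rw [Finsupp.weight_apply]
    exact sum_mem fun c _ => nsmul_mem (show (d c, w c) ∈ G from ⟨hw c, fun e => by have := hd c; omega⟩) _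
  have e1 := weight_hom (AddMonoidHom.fst ℕ ℕ) (fun c => (d c, w c)) m
  have e2 := weight_hom (AddMonoidHom.snd ℕ ℕ) (fun c => (d c, w c)) m
  exact e2.trans_le (this.1.trans_eq (congrArg (M * x ^ ·) e1.symm))

theorem th_eqv {d e : Type} [Fintype d] [Fintype e] (M : Matrix d d ℝ) (f : e ≃ d) :
    Po.th (M.submatrix f f) 0 = Po.th M 0 := by
  rw [Po.th, Po.th, ← (Equiv.arrowCongr f (Equiv.refl ℤ)).tsum_eq]
  refine tsum_congr fun n => ?_
  simp only [sub_zero, gs, qf, dotProduct, mulVec, ← f.sum_comp, zc]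
  simp

/-- a level seen through an injection -/
theorem lev_eq (T : TS Unit) (st : T.C → ℕ) (t : ℕ) {d : Type} [Fintype d] (f : d → T.C)
    (hf : Function.Injective f) (h : ∀ c, st c = t ↔ c ∈ Set.range f) :
    (T.stg st).R t = Fintype.card d ∧ (T.stg st).ct t = Po.th ((T.stg st).D.submatrix f f) 0 := by
  let e : d ≃ {c // (T.stg st).lev c = t} := Equiv.ofBijective
    (fun x => ⟨f x, (stg_lev _).trans ((h _).2 ⟨x, rfl⟩)⟩)
    ⟨fun x y z => hf (congrArg Subtype.val z), fun c => by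
      obtain ⟨x, hx⟩ := (h _).1 ((stg_lev _).symm.trans c.2)
      exact ⟨x, Subtype.ext hx⟩⟩
  exact ⟨by rw [TS.R, ← Fintype.card_subtype, Fintype.card_congr e], (th_eqv _ e).symm⟩

section blk
variable {a b : Type} [Fintype a] [Fintype b] [DecidableEq a] [DecidableEq b] {A : Matrix a a ℝ}
  {B : Matrix b b ℝ} {μ : ℝ} {X : Matrix (a ⊕ b) (a ⊕ b) ℝ}

theorem det_blk {L : Matrix b a ℝ} (h : X = fromBlocks (μ⁻¹ • A) 0 L B) (h0 : 0 < μ) (hA : A.det ≠ 0)
    (hB : B.det ≠ 0) : X.det ≠ 0 := by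
  rw [h, det_fromBlocks_zero₁₂, det_smul]
  exact mul_ne_zero (mul_ne_zero (pow_ne_zero _ (inv_ne_zero h0.ne')) hA) hB

theorem D_blk (h : X = fromBlocks (μ⁻¹ • A) 0 0 B) (h0 : 0 < μ) (hA : A.det ≠ 0) (hB : B.det ≠ 0) :
    X⁻¹ * 1 * X⁻¹ᵀ = fromBlocks (μ ^ 2 • (A⁻¹ * 1 * A⁻¹ᵀ)) 0 0 (B⁻¹ * B⁻¹ᵀ) := by
  have i : X⁻¹ = fromBlocks (μ • A⁻¹) 0 0 B⁻¹ := by
    refine inv_eq_right_inv ?_
    rw [h, fromBlocks_multiply]
    simp [smul_smul, h0.ne', mul_nonsing_inv _ hA.isUnit, mul_nonsing_inv _ hB.isUnit]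
  rw [i, Matrix.mul_one, fromBlocks_transpose, fromBlocks_multiply]
  simp [smul_smul, sq]

end blk

variable {s M0 : ℕ} {T0 : TS Unit} {st0 : T0.C → ℕ} {E : Nw T0}

theorem lev_T : E.T.lev = E.lev := by
  funext c; cases c
  · rfl
  · exact Finsupp.degree_single _ _

theorem co_inl (c c' : T0.C) : coeff (Finsupp.single (.inl c') 1) (E.Φa (.inl c)) =
    E.μ⁻¹ * coeff (Finsupp.single c' 1) (T0.Φ c) := by
  rw [Nw.Φa, Sum.elim_inl, coeff_smul, ← Finsupp.mapDomain_single,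
    coeff_rename_mapDomain _ Sum.inl_injective, smul_eq_mul]

theorem co_inr (c : T0.C) (n : E.N) : coeff (Finsupp.single (.inr n) 1) (E.Φa (.inl c)) = 0 := by
  rw [Nw.Φa, Sum.elim_inl, coeff_smul, coeff_rename_eq_zero, smul_zero]
  intro u hu
  have := Finsupp.mapDomain_of_notMem_range (f := (Sum.inl : T0.C → T0.C ⊕ E.N)) u (.inr n) (by simp)
  rw [hu] at this
  simp at this

theorem co_new (w : E.Wf s) (n n' : E.N) (e : E.lv n ≠ E.lv n') : E.A n n' = 0 :=
  of_not_not fun z => e (by simpa [Finsupp.weight_single, Nw.lev] using (w.hom n z).symm)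

theorem supp_inl {c : T0.C} {m : T0.C ⊕ E.N →₀ ℕ} (h : coeff m (E.Φa (.inl c)) ≠ 0) :
    ∃ u : T0.C →₀ ℕ, u.mapDomain .inl = m ∧ coeff u (T0.Φ c) ≠ 0 := by
  rw [Nw.Φa, Sum.elim_inl, coeff_smul] at h
  exact coeff_rename_ne_zero _ _ _ fun z => h (by rw [z, smul_zero])

theorem hom (o : Old T0 st0 M0 s) (w : E.Wf s) (c : T0.C ⊕ E.N) :
    (E.Φa c).IsWeightedHomogeneous E.lev (E.lev c) := by
  cases c with
  | inl c =>
    intro m hm
    obtain ⟨u, rfl, hu⟩ := supp_inl hm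
    exact (weight_map Sum.inl E.lev u).trans ((hom_iff _ _ _).1 (o.ok.hom c) hu)
  | inr n => exact w.hom n

theorem lev_pos (o : Old T0 st0 M0 s) (w : E.Wf s) (c : T0.C ⊕ E.N) : 1 ≤ E.lev c := by
  cases c; exacts [o.ok.toTri.lev_pos _, (w.lv _).1]

theorem ok (o : Old T0 st0 M0 s) (w : E.Wf s) : E.T.Ok where
  tri c m hm := by rw [lev_T]; exact (hom o w c (mem_support_iff.1 hm)).le
  ne c e := by
    have := lev_pos o w c
    rw [← lev_T, lev, e] at this
    simp at this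
  det := by
    have : E.T.A = fromBlocks (E.μ⁻¹ • T0.A) 0 (E.T.A.submatrix .inr .inl) E.A := by
      ext (c | n) (c' | n')
      · exact (if_congr Iff.rfl (co_inl c c') (mul_zero _).symm).trans (mul_ite _ _ _ _).symm
      · exact (if_congr Iff.rfl (co_inr c n') rfl).trans (ite_self _)
      · rfl
      · change (if E.T.lev _ = E.T.lev _ then E.A n n' else 0) = E.A n n'
        rw [lev_T]
        split_ifs with e; exacts [rfl, (co_new w n n' e).symm]
    exact det_blk this w.pos o.ok.det w.det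
  pd := PosDef.one
  blk c c' e := congrArg _ (of_not_not fun z => e (one_apply_ne z))
  hom c := (hom_iff _ _ _).2 (by have := hom o w c; rwa [← lev_T] at this)

theorem lt_new (o : Old T0 st0 M0 s) {l : ℕ} (h : 1 ≤ l) (hs : 1 ≤ s) : M0 < M0 * (s + 1) ^ l :=
  (Nat.lt_mul_iff_one_lt_right o.one).2 (Nat.one_lt_pow (by omega) (by omega))

theorem old_lt (o : Old T0 st0 M0 s) (w : E.Wf s) (c : T0.C) (n : E.N) :
    st0 c < M0 * (s + 1) ^ E.lv n :=
  (o.stg.le c).1.trans_lt (lt_new o (w.lv n).1 ((w.lv n).1.trans (w.lv n).2))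

theorem new_inj (o : Old T0 st0 M0 s) (hs : 1 ≤ s) {l l' : ℕ}
    (e : M0 * (s + 1) ^ l = M0 * (s + 1) ^ l') : l = l' :=
  Nat.pow_right_injective (by omega) (Nat.eq_of_mul_eq_mul_left o.one e)

theorem stA (o : Old T0 st0 M0 s) (w : E.Wf s) :
    (E.T.stg (E.st st0 M0 s)).A = fromBlocks (E.μ⁻¹ • (T0.stg st0).A) 0 0 E.A := by
  refine Matrix.ext fun (x y : T0.C ⊕ E.N) => (stg_A (T := E.T) x y).trans ?_
  rcases x with c | n <;> rcases y with c' | n'
  · exact ((if_congr Iff.rfl (co_inl c c') (mul_zero _).symm).trans (mul_ite _ _ _ _).symm).trans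
      (congrArg (E.μ⁻¹ * ·) (stg_A c c').symm)
  · exact if_neg (old_lt o w c n').ne
  · exact if_neg (old_lt o w c' n).ne'
  · change (if M0 * (s + 1) ^ E.lv n = M0 * (s + 1) ^ E.lv n' then E.A n n' else 0) = E.A n n'
    split_ifs with e; exacts [rfl, (co_new w n n' fun z => e (by rw [z])).symm]

theorem stg (o : Old T0 st0 M0 s) (w : E.Wf s) : E.T.Stg (E.st st0 M0 s) (M0 * (s + 1) ^ s) where
  cl := (ok o w).cl
  tri := by
    refine stg_tri (T := E.T) ?_ ?_ ?_ PosDef.one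
      fun c c' e => congrArg _ (of_not_not fun z => e (one_apply_ne z))
    · rintro (c | n) m hm
      · obtain ⟨u, rfl, hu⟩ := supp_inl (mem_support_iff.1 hm)
        exact (weight_map Sum.inl (E.st st0 M0 s) u).trans_le (o.stg.wt c (mem_support_iff.2 hu))
      · have h1 := w.lv n
        refine (wt_geo (M := M0) (x := s + 1) (by omega) (lev_pos o w) ?_ m).trans_eq
          (congrArg (M0 * (s + 1) ^ ·) (w.hom n (mem_support_iff.1 hm)))
        rintro (c | n')
        exacts [(o.stg.le c).1.trans (Nat.le_mul_of_pos_right _ (by positivity)), le_rfl]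
    · rintro (c | n)
      exacts [(o.stg.pos c).ne', Nat.mul_ne_zero (Nat.pos_iff_ne_zero.1 o.one) (by positivity)]
    · exact det_blk (stA o w) w.pos o.stg.tri.det w.det
  lev := by
    rw [lev_T]
    rintro (c | n) (c' | n') e
    exacts [o.stg.lev c c' e, ((old_lt o w c n').ne e).elim, ((old_lt o w c' n).ne' e).elim,
      new_inj o ((w.lv n).1.trans (w.lv n).2) e]
  le := by
    rw [lev_T]
    have p : M0 ≤ M0 * (s + 1) ^ s := Nat.le_mul_of_pos_right _ (by positivity)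
    rintro (c | n)
    · exact ⟨(o.stg.le c).1.trans p, (o.stg.le c).2.trans p⟩
    · exact ⟨Nat.mul_le_mul_left _ (Nat.pow_le_pow_right (by omega) (w.lv n).2),
        (w.lv n).2.trans (((Nat.lt_pow_self (by have := w.lv n; omega)).le).trans
          (Nat.le_mul_of_pos_left _ o.one))⟩

theorem stD (o : Old T0 st0 M0 s) (w : E.Wf s) : (E.T.stg (E.st st0 M0 s)).D =
    fromBlocks (E.μ ^ 2 • (T0.stg st0).D) 0 0 (E.A⁻¹ * E.A⁻¹ᵀ) := by
  have k : (T0.stg st0).D = (T0.stg st0).A⁻¹ * 1 * (T0.stg st0).A⁻¹ᵀ := by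
    rw [D, show (T0.stg st0).K = 1 from o.K]
  rw [k]
  exact D_blk (stA o w) w.pos o.stg.tri.det w.det

end Ns

open Ns in
theorem nstg : NSTG := fun s M0 T0 st0 E o w => by
  refine ⟨⟨ok o w, rfl, stg o w, ?_, Nat.mul_pos o.one (by positivity)⟩, lev_T, stA o w,
    fun t ht => ?_, fun l hl => ?_, fun t ht hn => ?_⟩
  · rw [lev_T]
    rintro (c | n); exacts [o.lev c, (w.lv n).2]
  · obtain ⟨a, b⟩ := lev_eq E.T (E.st st0 M0 s) t
      (fun c : {c // (T0.stg st0).lev c = t} => (.inl c.1 : T0.C ⊕ E.N))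
      (Sum.inl_injective.comp Subtype.val_injective) (by
        rintro (c | n)
        · exact ⟨fun e => ⟨⟨c, (stg_lev c).trans e⟩, rfl⟩, fun ⟨x, e⟩ => by
            cases e; exact (stg_lev _).symm.trans x.2⟩
        · exact ⟨fun e => ((ht.trans_lt (lt_new o (w.lv n).1
            ((w.lv n).1.trans (w.lv n).2))).ne' e).elim, fun ⟨x, e⟩ => by cases e⟩)
    have c : Fintype.card {c // (T0.stg st0).lev c = t} = (T0.stg st0).R t :=
      Fintype.card_subtype _
    refine ⟨a.trans c, b.trans_le ?_⟩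
    have := th_scale (o.stg.tri.pd_D.submatrix (Subtype.val_injective
      (p := fun c => (T0.stg st0).lev c = t))) (pow_pos w.pos 2) (pow_le_one₀ w.pos.le w.le) 0
    rw [Real.sqrt_sq w.pos.le, c] at this
    rw [stD o w]
    exact this
  · obtain ⟨a, b⟩ := lev_eq E.T (E.st st0 M0 s) (M0 * (s + 1) ^ l)
      (fun n : {n // E.lv n = l} => (.inr n.1 : T0.C ⊕ E.N))
      (Sum.inr_injective.comp Subtype.val_injective) (by
        rintro (c | n)
        · have h1 := o.ok.toTri.lev_pos c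
          exact ⟨fun e => (((o.stg.le c).1.trans_lt (lt_new o hl
            (h1.trans_le (o.lev c)))).ne e).elim, fun ⟨x, e⟩ => by cases e⟩
        · exact ⟨fun e => ⟨⟨n, new_inj o ((w.lv n).1.trans (w.lv n).2) e⟩, rfl⟩, fun ⟨x, e⟩ => by
            cases e; exact congrArg (M0 * (s + 1) ^ ·) x.2⟩)
    refine ⟨a.trans (Fintype.card_subtype _), b.trans ?_⟩
    rw [stD o w]; rfl
  · obtain ⟨a, b⟩ := lev_eq E.T (E.st st0 M0 s) t (Empty.elim : Empty → T0.C ⊕ E.N)
      (fun x => x.elim) (by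
        rintro (c | n)
        · exact ⟨fun e => (((o.stg.le c).1.trans_lt ht).ne e).elim, fun ⟨x, _⟩ => x.elim⟩
        · exact ⟨fun e => (hn _ e.symm).elim, fun ⟨x, _⟩ => x.elim⟩)
    refine ⟨a.trans (by simp), b.trans ?_⟩
    simp [Po.th, gs, qf, dotProduct]

end Crest.Agent.N49.Tw

end
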