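import Crest.Agent.N49.Rn.Defs
import Crest.Agent.N49.Tw.Chg
import Crest.Agent.N49.Tw.Api
import Crest.Agent.N49.Tw.ConM

/-!
# Row 49 (helper10): the old stages stay regular
-/

set_option autoImplicit false

open Matrix MvPolynomial Finset

noncomputable section

namespace Crest.Agent.N49.Tw

open Po

namespace Nold

/-- the matrix of a projection -/
def pm {C C' : Type} [DecidableEq C] (R : Type) [Zero R] [One R] (ι : C' → C) : Matrix C' C R :=
  Matrix.of fun c' c => if ι c' = c then 1 else 0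

theorem vm_inj {C C' : Type} [Fintype C'] [DecidableEq C] {ι : C' → C} (hi : Function.Injective ι)
    {k : C → ℤ} (hk : ∀ c, k c ≠ 0 → ∃ c', ι c' = c) : (fun c => k (ι c)) ᵥ* pm ℤ ι = k := by
  funext c
  simp only [vecMul, dotProduct, pm, of_apply, mul_ite, mul_one, mul_zero]
  by_cases z : ∃ c', ι c' = c
  · obtain ⟨c', rfl⟩ := z
    rw [sum_eq_single c' (fun b _ n => if_neg fun e => n (hi e)) (by simp), if_pos rfl]
  · rw [not_not.1 fun n => z (hk c n)]
    exact sum_eq_zero fun c' _ => if_neg fun e => z ⟨c', e⟩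

theorem pm_eqv {C C' : Type} [Fintype C] [DecidableEq C] [DecidableEq C'] (e : C' ≃ C) :
    pm ℤ e * pm ℤ e.symm = 1 := by
  ext a b
  rw [mul_apply, sum_eq_single (e a) (fun c _ n => by simp [pm, n.symm]) (by simp)]
  simp [pm, one_apply]

variable {σ σ' : Type} {T : TS σ} {T' : TS σ'}

/-- a projection of the coordinates with scaled errors -/
theorem mor_inj (h : T.Tri) (h' : T'.Tri) (ι : T'.C → T.C) (m : ℝ)
    (lv : ∀ c, T'.lev c = T.lev (ι c))
    (hu : ∀ (y : T.C → ℤ) c, T'.u (zc (y ∘ ι)) c = m * T.u (zc y) (ι c))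
    (hK : ∀ c c', T'.K c c' = m ^ 2 * T.K (ι c) (ι c')) :
    T.Mor T' (· ∘ ι) (pm ℤ ι) (m • pm ℝ ι) where
  t := h
  t' := h'
  lv c' c n := by rw [lv, not_not.1 fun k : ι c' ≠ c => n (if_neg k)]
  lb c' c n := by rw [lv, not_not.1 fun k : ι c' ≠ c => n (by simp [pm, k])]
  tri y x c' _ := by simp [mulVec, dotProduct, pm]
  u y := funext fun c => by simp [hu, mulVec, dotProduct, pm]
  K := by ext c c'; simp [hK, mul_apply, pm]; ring

theorem bias_inj {ι : T'.C → T.C} {B : Matrix T'.C T.C ℝ}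
    (h : T.Mor T' (· ∘ ι) (pm ℤ ι) B) (hi : Function.Injective ι)
    (l : ℕ) (hs : ∀ c, T.lev c < l → ∃ c', ι c' = c) {k : T.C → ℤ}
    (hk : ∀ c, k c ≠ 0 → T.lev c ≤ l ∧ ∃ c', ι c' = c) :
    T.bias l k = T'.bias l fun c => k (ι c) := by
  have lv : ∀ c, T'.lev c = T.lev (ι c) := fun c => h.lv c _ (by simp [pm])
  let e : (T'.lt l).C ≃ (T.lt l).C := Equiv.ofBijective
    (fun c => ⟨ι c.1, (lv c.1).symm.trans_lt c.2⟩) ⟨fun a b k => Subtype.ext (hi (congrArg Subtype.val k)),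
      fun c => let ⟨c', k⟩ := hs c.1 c.2; ⟨⟨c', ((lv c').trans (congrArg _ k)).trans_lt c.2⟩,
        Subtype.ext k⟩⟩
  have q : ((pm ℤ ι).submatrix Subtype.val Subtype.val : Matrix (T'.lt l).C (T.lt l).C ℤ) =
      pm ℤ e := by
    ext a b
    exact if_congr (Subtype.ext_iff (a1 := e a) (a2 := b)).symm rfl rfl
  have i : (T.lt l).Iso (T'.lt l) _ _ _ (pm ℤ e.symm) :=
    ⟨h.lt l, (congrArg (· * pm ℤ e.symm) q).trans (pm_eqv e),
      (congrArg (pm ℤ e.symm * ·) q).trans (pm_eqv e.symm)⟩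
  refine congrArg norm (Eq.trans ?_ (i.Ec _))
  refine congrArg (T.lt l).Ec (funext fun y => ?_)
  conv_lhs => rw [← vm_inj hi fun c n => (hk c n).2, ← h.ph]
  exact h.t'.ph_low (fun c hc => not_not.1 fun n => absurd (hk _ n).1 (by rw [← lv]; omega))
    fun c hc => (glue_pos (p := fun c => T'.lev c < l) (TS.lmap (· ∘ ι) l y) 0 hc).symm

variable {τ : Type} {T0 : TS Unit} (E : Nw T0) (S : Sh Unit τ) (K : Matrix S.W S.W ℝ)

/-- the old coordinates on a shape -/
def io (p : T0.Cw S) : E.T.Cw (S.setK K) := ⟨(.inl p.1.1, p.1.2), p.2⟩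

theorem io_inj : Function.Injective (io E S K) := fun _ _ e => Subtype.ext (Prod.ext
  (Sum.inl_injective (congrArg (·.1.1) e)) (congrArg (·.1.2) e))

theorem io_rg {p : E.T.Cw (S.setK K)} {c : T0.C} (h : p.1.1 = .inl c) : ∃ q, io E S K q = p := by
  obtain ⟨⟨_, w⟩, k⟩ := p
  obtain rfl := h
  exact ⟨⟨(c, w), k⟩, rfl⟩

theorem Yw_io (y : E.T.Cw (S.setK K) → ℝ) (F : T0.C) :
    E.T.Yw (S.setK K) y (.inl F) = T0.Yw S (fun p => y (io E S K p)) F := by
  unfold TS.Yw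
  rw [sum_filter, sum_filter]
  symm
  refine sum_of_injOn (io E S K) (io_inj E S K).injOn (fun _ _ => mem_coe.2 (mem_univ _))
    (fun p _ hp => if_neg fun e => hp ?_) fun p _ => ?_
  · obtain ⟨q, rfl⟩ := io_rg E S K e
    exact ⟨q, mem_coe.2 (mem_univ _), rfl⟩
  · by_cases e : p.1.1 = F
    · exact (if_pos e).trans (if_pos (congrArg Sum.inl e)).symm
    · exact (if_neg e).trans (if_neg fun z => e (Sum.inl_injective z)).symm

theorem one_inl {C N : Type} [DecidableEq C] [DecidableEq N] (c c' : C) :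
    (1 : Matrix C C ℝ) c c' = (1 : Matrix (C ⊕ N) (C ⊕ N) ℝ) (.inl c) (.inl c') := by
  simp [one_apply]

theorem ae_inl {C N R : Type} [CommRing R] [Algebra ℝ R] {μ : ℝ} (hμ : μ ≠ 0) (Y : C ⊕ N → R)
    (P : MvPolynomial C ℝ) :
    aeval (fun c => Y (.inl c)) P = μ • aeval Y (μ⁻¹ • rename Sum.inl P) := by
  rw [map_smul, aeval_rename, smul_smul, mul_inv_cancel₀ hμ, one_smul]
  rfl

theorem u_io (h0 : T0.Ok) (h : E.T.Ok) (hμ : E.μ ≠ 0) (y : E.T.Cw (S.setK K) → ℝ) (p : T0.Cw S) :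
    (T0.sh S).u (fun q : T0.Cw S => y (io E S K q)) p =
      E.μ * (E.T.sh (S.setK K)).u y (io E S K p) := by
  refine (TS.sh_u _ _).trans (Eq.trans ?_ (congrArg _ (TS.sh_u _ _).symm))
  rw [h0.hz _ 1, h.hz _ 1, TS.hz_one, TS.hz_one]
  refine Eq.trans ?_ (map_smul (S.cf ℝ p.1.2) E.μ _)
  refine congrArg _ (Eq.trans ?_ (ae_inl hμ (E.T.Yw (S.setK K) y) _))
  exact congrArg (fun Y => aeval Y (T0.Φ p.1.1)) (funext fun F => (Yw_io E S K y F).symm)

end Nold

open Nold TS in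
theorem nold (hn : NSTG) : NOLD := by
  intro s M0 T0 st0 E t κ R τ h0 hE ht hκ hs l col k k0 hk hR
  have h1 := (hn s M0 T0 st0 E h0 hE).1
  have mp := hE.pos
  have old : ∀ F, E.st st0 M0 s F ≤ t → ∃ c, Sum.inl c = F := fun F hF => by
    rcases F with c | n
    · exact ⟨c, rfl⟩
    · exfalso
      have a := hE.lv n
      have b : s + 1 ≤ (s + 1) ^ E.lv n := Nat.le_self_pow (by omega) _
      have c := h0.one
      change M0 * (s + 1) ^ E.lv n ≤ t at hF
      nlinarith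
  have kr : ∀ F, k F ≠ 0 → ∃ c, Sum.inl c = F := fun F n => old F (hk F n).1.le
  have m1 := mor_inj (T := E.T.stg (E.st st0 M0 s))
    (T' := (T0.stg st0).setK (E.μ ^ 2 • T0.K)) h1.stg.tri
    (h0.stg.tri.setK (h0.ok.pd.smul (by positivity)) fun c c' n =>
      mul_eq_zero_of_right _ (h0.stg.tri.blk_K c c' n)) Sum.inl E.μ
    (fun c => (stg_lev c).trans (stg_lev (T := E.T) (st := E.st st0 M0 s) (.inl c)).symm)
    (fun y c => ae_inl (N := E.N) mp.ne' (zc y) (T0.Φ c))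
    fun c c' => congrArg (E.μ ^ 2 * ·)
      ((congrFun₂ h0.K c c').trans (one_inl (C := T0.C) (N := E.N) c c'))
  have q := (m1.qf_D fun c => k (.inl c)).trans (congrArg
    (fun x => qf (E.T.stg (E.st st0 M0 s)).D (zc x)) (vm_inj Sum.inl_injective kr))
  have d : ((T0.stg st0).setK (E.μ ^ 2 • T0.K)).D = E.μ ^ 2 • (T0.stg st0).D := by
    change (T0.stg st0).A⁻¹ * (E.μ ^ 2 • (T0.stg st0).K) * (T0.stg st0).A⁻¹ᵀ = _
    rw [Matrix.mul_smul, Matrix.smul_mul]
    rfl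
  replace q := ((qf_smul _ _ _).symm.trans (congrArg (qf · _) d.symm)).trans q
  have hb := hs l col (fun c => k (.inl c)) (fun z => k0 (funext fun F => not_not.1 fun n => by
      obtain ⟨c, rfl⟩ := kr F n
      exact n (congrFun z c))) (fun F n => hk (.inl F) n)
    (le_of_mul_le_mul_left (q.le.trans hR) (by positivity))
  have o : (Sh.sym col κ).Ok := Sh.sym_ok fun j _ => hκ j
  have o' : (Sh.sym col fun j => κ j / E.μ ^ 2).Ok :=
    Sh.sym_ok fun j _ => div_pos (hκ j) (by positivity)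
  have t0 := lw_tri h0.stg (h0.stg.adm o) o
  have t1 := lw_tri h1.stg (h1.stg.adm o') o'
  have e0 : ∀ {T : TS Unit} {S : Sh Unit (Fin l)} {st : T.C → ℕ}, (T.lw S st (T.tw0 S)).Tri →
      ((T.sh S).stg fun p => st p.1.1).Tri := fun {T S st} h =>
    (congrArg (fun Φ => (((T.sh S).setΦ Φ).stg fun p => st p.1.1).Tri)
      (funext fun p => congrArg (S.cf _ p.1.2) (eval₂_tw0 _ _))).mp h
  set S := Sh.sym col κ
  let K : Matrix S.W S.W ℝ := (Sh.sym col fun j => κ j / E.μ ^ 2).K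
  have m2 := mor_inj (T := (E.T.sh (S.setK K)).stg fun p => E.st st0 M0 s p.1.1)
    (T' := (T0.sh S).stg fun p => st0 p.1.1) (e0 t1) (e0 t0) (io E S K) E.μ
    (fun c => (Finsupp.degree_single _ _).trans (Finsupp.degree_single _ _).symm)
    (fun y c => u_io E S K h0.ok h1.ok mp.ne' (zc y) c) fun c c' => by
      change T0.K c.1.1 c'.1.1 * dk (fun μ => κ μ.degree) c.1.2.1 c'.1.2.1 =
        _ * ((1 : Matrix (T0.C ⊕ E.N) (T0.C ⊕ E.N) ℝ) (.inl c.1.1) (.inl c'.1.1) *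
          dk (fun μ => κ μ.degree / E.μ ^ 2) c.1.2.1 c'.1.2.1)
      rw [h0.K, ← one_inl, dk, dk]
      split_ifs
      · field_simp
      · simp
  refine (bias_inj m2 (io_inj E S K) t (fun p hp => ?_) fun p hp => ?_).le.trans hb
  · obtain ⟨c, e⟩ := old p.1.1 ((Finsupp.degree_single _ _).ge.trans hp.le)
    exact io_rg E S K e.symm
  · have n : k p.1.1 ≠ 0 := fun z => hp (by rw [z, ite_self])
    obtain ⟨c, e⟩ := kr _ n
    exact ⟨(Finsupp.degree_single _ _).le.trans (hk _ n).1.le, io_rg E S K e.symm⟩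

end Crest.Agent.N49.Tw

end
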