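import Crest.Agent.N49.Rn.Defs

/-! # Row 49 (helper26): the `l1` norm of a polynomial, dilations -/

set_option autoImplicit false

open MvPolynomial Finset

noncomputable section

namespace Crest.Agent.N49.Tw

variable {C C' : Type} {P Q : MvPolynomial C ℝ}

theorem l1_nonneg (P : MvPolynomial C ℝ) : 0 ≤ l1 P := sum_nonneg fun _ _ => abs_nonneg _

theorem l1_eq {s : Finset (C →₀ ℕ)} (h : P.support ⊆ s) : l1 P = ∑ m ∈ s, |coeff m P| :=
  sum_subset h fun m _ k => by rw [notMem_support_iff.1 k, abs_zero]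

theorem sum_le_l1 (P : MvPolynomial C ℝ) (s : Finset (C →₀ ℕ)) : ∑ m ∈ s, |coeff m P| ≤ l1 P := by
  classical
  rw [l1_eq (subset_union_left (s₂ := s))]
  exact sum_le_sum_of_subset_of_nonneg subset_union_right fun _ _ _ => abs_nonneg _

theorem abs_coeff_le (P : MvPolynomial C ℝ) (m : C →₀ ℕ) : |coeff m P| ≤ l1 P := by
  simpa using sum_le_l1 P {m}

@[simp] theorem l1_zero : l1 (0 : MvPolynomial C ℝ) = 0 := by simp [l1]

theorem l1_add (P Q : MvPolynomial C ℝ) : l1 (P + Q) ≤ l1 P + l1 Q :=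
  calc l1 (P + Q) ≤ ∑ m ∈ (P + Q).support, (|coeff m P| + |coeff m Q|) :=
        sum_le_sum fun m _ => by rw [coeff_add]; exact abs_add_le _ _
    _ ≤ _ := by rw [sum_add_distrib]; exact add_le_add (sum_le_l1 _ _) (sum_le_l1 _ _)

theorem l1_smul (a : ℝ) (P : MvPolynomial C ℝ) : l1 (a • P) = |a| * l1 P := by
  rw [l1_eq support_smul, l1, mul_sum]
  exact sum_congr rfl fun m _ => by rw [coeff_smul, smul_eq_mul, abs_mul]

theorem l1_C_mul (a : ℝ) (P : MvPolynomial C ℝ) : l1 (MvPolynomial.C a * P) = |a| * l1 P := by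
  rw [← smul_eq_C_mul, l1_smul]

theorem l1_neg (P : MvPolynomial C ℝ) : l1 (-P) = l1 P := by
  rw [← neg_one_smul ℝ, l1_smul]; simp

theorem l1_sub (P Q : MvPolynomial C ℝ) : l1 (P - Q) ≤ l1 P + l1 Q := by
  rw [sub_eq_add_neg, ← l1_neg Q]; exact l1_add _ _

theorem l1_sum {ι : Type*} (s : Finset ι) (f : ι → MvPolynomial C ℝ) :
    l1 (∑ i ∈ s, f i) ≤ ∑ i ∈ s, l1 (f i) := by
  classical
  induction s using Finset.induction_on with
  | empty => simp
  | insert a s ha ih => rw [sum_insert ha, sum_insert ha]; exact (l1_add _ _).trans (by linarith)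

theorem l1_monomial (m : C →₀ ℕ) (a : ℝ) : l1 (monomial m a) = |a| := by
  classical
  rw [l1_eq support_monomial_subset]; simp

@[simp] theorem l1_X (c : C) : l1 (X c : MvPolynomial C ℝ) = 1 := by rw [X, l1_monomial, abs_one]

@[simp] theorem l1_C (a : ℝ) : l1 (MvPolynomial.C a : MvPolynomial C ℝ) = |a| := l1_monomial 0 a

@[simp] theorem l1_one : l1 (1 : MvPolynomial C ℝ) = 1 := by rw [← C_1, l1_C, abs_one]

theorem l1_mul (P Q : MvPolynomial C ℝ) : l1 (P * Q) ≤ l1 P * l1 Q := by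
  conv_lhs => rw [P.as_sum, Q.as_sum, sum_mul_sum]
  refine (l1_sum _ _).trans ?_
  rw [l1, l1, sum_mul_sum]
  refine sum_le_sum fun m _ => (l1_sum _ _).trans (sum_le_sum fun m' _ => ?_)
  rw [monomial_mul, l1_monomial, abs_mul]

theorem l1_prod {ι : Type*} (s : Finset ι) (f : ι → MvPolynomial C ℝ) :
    l1 (∏ i ∈ s, f i) ≤ ∏ i ∈ s, l1 (f i) := by
  classical
  induction s using Finset.induction_on with
  | empty => simp
  | insert a s ha ih =>
    rw [prod_insert ha, prod_insert ha]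
    exact (l1_mul _ _).trans (mul_le_mul_of_nonneg_left ih (l1_nonneg _))

theorem l1_pow (P : MvPolynomial C ℝ) (n : ℕ) : l1 (P ^ n) ≤ l1 P ^ n := by
  simpa using l1_prod (range n) fun _ => P

theorem l1_aeval_monomial {H : C → MvPolynomial C' ℝ} {x : ℝ} (h : ∀ c, l1 (H c) ≤ x)
    (m : C →₀ ℕ) (a : ℝ) : l1 (aeval H (monomial m a)) ≤ |a| * x ^ m.degree := by
  rw [aeval_monomial, algebraMap_eq, l1_C_mul, Finsupp.degree, Finsupp.prod]
  refine mul_le_mul_of_nonneg_left ((l1_prod _ _).trans ?_) (abs_nonneg _)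
  change _ ≤ x ^ ∑ c ∈ m.support, m c
  rw [← prod_pow_eq_pow_sum]
  exact prod_le_prod (fun _ _ => l1_nonneg _) fun c _ =>
    (l1_pow _ _).trans (pow_le_pow_left₀ (l1_nonneg _) (h c) _)

/-- substitution -/
theorem l1_aeval {H : C → MvPolynomial C' ℝ} {x : ℝ} (h : ∀ c, l1 (H c) ≤ x) (hx : 1 ≤ x) {s : ℕ}
    (hs : ∀ m ∈ P.support, m.degree ≤ s) : l1 (aeval H P) ≤ l1 P * x ^ s := by
  conv_lhs => rw [P.as_sum, map_sum]
  refine (l1_sum _ _).trans ?_
  rw [l1, sum_mul]
  exact sum_le_sum fun m k => (l1_aeval_monomial h m _).trans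
    (mul_le_mul_of_nonneg_left (pow_le_pow_right₀ hx (hs m k)) (abs_nonneg _))

/-- substitution of small polynomials into a polynomial without constant term -/
theorem l1_aeval_small {H : C → MvPolynomial C' ℝ} {x : ℝ} (h : ∀ c, l1 (H c) ≤ x) (h0 : 0 ≤ x)
    (hx : x ≤ 1) (hs : ∀ m ∈ P.support, m ≠ 0) : l1 (aeval H P) ≤ l1 P * x := by
  conv_lhs => rw [P.as_sum, map_sum]
  refine (l1_sum _ _).trans ?_
  rw [l1, sum_mul]
  exact sum_le_sum fun m k => (l1_aeval_monomial h m _).trans (mul_le_mul_of_nonneg_left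
    (pow_le_of_le_one h0 hx fun e => hs m k ((Finsupp.degree_eq_zero_iff _).1 e)) (abs_nonneg _))

theorem deg_le_of_hom {R : Type} [CommRing R] {w : C → ℕ} (hw : ∀ c, 0 < w c)
    {P : MvPolynomial C R} {l : ℕ} (h : P.IsWeightedHomogeneous w l) :
    ∀ m ∈ P.support, m.degree ≤ l := fun m k => by
  rw [← h (mem_support_iff.1 k), Finsupp.degree, Finsupp.weight_apply, Finsupp.sum]
  exact sum_le_sum fun c _ => Nat.le_mul_of_pos_right _ (hw c)

theorem ne_zero_of_hom {R : Type} [CommRing R] {w : C → ℕ} {P : MvPolynomial C R} {l : ℕ}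
    (h : P.IsWeightedHomogeneous w l) (hl : 0 < l) : ∀ m ∈ P.support, m ≠ 0 := fun m k e => by
  have := h (mem_support_iff.1 k)
  rw [e, map_zero] at this
  omega

theorem l1_aeval_hom {H : C → MvPolynomial C' ℝ} {x : ℝ} (h : ∀ c, l1 (H c) ≤ x) (hx : 1 ≤ x)
    {w : C → ℕ} (hw : ∀ c, 0 < w c) {l s : ℕ} (hP : P.IsWeightedHomogeneous w l) (e : l ≤ s) :
    l1 (aeval H P) ≤ l1 P * x ^ s :=
  l1_aeval h hx fun m k => (deg_le_of_hom hw hP m k).trans e

theorem l1_rename (f : C → C') (P : MvPolynomial C ℝ) : l1 (rename f P) ≤ l1 P := by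
  have := l1_aeval (P := P) (H := X ∘ f) (x := 1) (fun _ => by simp) le_rfl
    (s := P.totalDegree) fun m k => le_totalDegree k
  rwa [one_pow, mul_one, ← rename_eq_aeval] at this

theorem aeval_Cv (y : C → ℝ) (P : MvPolynomial C ℝ) :
    aeval (fun c => (MvPolynomial.C (y c) : MvPolynomial C' ℝ)) P = MvPolynomial.C (eval y P) := by
  induction P using MvPolynomial.induction_on with
  | C a => rw [aeval_C, eval_C, algebraMap_eq]
  | add p q hp hq => rw [map_add, map_add, map_add, hp, hq]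
  | mul_X p c hp => rw [map_mul, map_mul, map_mul, hp, aeval_X, eval_X]

/-- evaluation in a bounded point -/
theorem abs_eval_le {y : C → ℝ} {x : ℝ} (h : ∀ c, |y c| ≤ x) (hx : 1 ≤ x) {s : ℕ}
    (hs : ∀ m ∈ P.support, m.degree ≤ s) : |eval y P| ≤ l1 P * x ^ s := by
  have := l1_aeval (C' := C) (H := fun c => MvPolynomial.C (y c)) (fun c => by simpa using h c) hx hs
  rwa [aeval_Cv, l1_C] at this

/-- dilation of a homogeneous polynomial -/
theorem aeval_dil {R A : Type} [CommRing R] [CommRing A] [Algebra R A] {w : C → ℕ}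
    {P : MvPolynomial C R} {l : ℕ} (h : P.IsWeightedHomogeneous w l) (ν : A) (y : C → A) :
    aeval (fun c => ν ^ w c * y c) P = ν ^ l * aeval y P := by
  conv_lhs => rw [P.as_sum, map_sum]
  conv_rhs => rw [P.as_sum, map_sum, mul_sum]
  refine sum_congr rfl fun m k => ?_
  rw [← h (mem_support_iff.1 k), aeval_monomial, aeval_monomial, Finsupp.weight_apply, Finsupp.sum,
    Finsupp.prod, Finsupp.prod, ← prod_pow_eq_pow_sum, mul_left_comm, ← prod_mul_distrib]
  refine congrArg _ (prod_congr rfl fun c _ => ?_)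
  rw [mul_pow, ← pow_mul, smul_eq_mul, mul_comm (m c)]

theorem TS.Ok.hom_lev {σ : Type} {T : TS σ} (h : T.Ok) (c : T.C) :
    (T.Φ c).IsWeightedHomogeneous T.lev (T.lev c) := fun m k => by
  rw [TS.weight_lev, h.hom c k]; rfl

theorem map_aeval_int (H : C → MvPolynomial C' ℤ) (P : MvPolynomial C ℤ) :
    map (Int.castRingHom ℝ) (aeval H P) =
      aeval (fun c => map (Int.castRingHom ℝ) (H c)) (map (Int.castRingHom ℝ) P) := by
  induction P using MvPolynomial.induction_on with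
  | C a => rw [aeval_C, map_C, aeval_C, algebraMap_eq, algebraMap_eq, map_C]
  | add p q hp hq => rw [map_add, map_add, map_add, map_add, hp, hq]
  | mul_X p c hp => rw [map_mul, map_mul, map_mul, map_mul, hp, aeval_X, map_X, aeval_X]

theorem aeval_aeval {R A : Type} [CommRing R] [CommRing A] [Algebra R A]
    (H : C → MvPolynomial C' R) (y : C' → A) (P : MvPolynomial C R) :
    aeval y (aeval H P) = aeval (fun c => aeval y (H c)) P := by
  rw [← AlgHom.comp_apply, comp_aeval]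

end Crest.Agent.N49.Tw

end
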