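import Crest.Agent.N49.Rn.Defs
import Crest.Agent.N49.Sy.Defs
import Crest.Agent.N49.Tw.Mono
import Crest.Agent.N49.Tw.Api

/-!
# Row 49 (helper19): the staged form `BREL` of B from the form `Sy.JBS` for towers
-/

set_option autoImplicit false

open Matrix MvPolynomial Finset

noncomputable section

namespace Crest.Agent.N49.Tw

open Po

namespace Brel

variable {σ : Type} {T : TS σ}

theorem top_Φ (h : T.Ok) : T.top.Φ = T.Φ := _root_.funext fun c =>
  IsWeightedHomogeneous.weightedHomogeneousComponent_same (w := T.lev) (p := T.Φ c)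
    fun m hm => by rw [TS.weight_lev, h.hom c hm]; rfl

/-- the identity behind `Triv`, on a cut -/
def Tv {C : Type} [Fintype C] [DecidableEq C] (Φ : C → MvPolynomial C ℝ) (p : C → Prop)
    [DecidablePred p] (q : ℕ) (r : ℝ) (P : MvPolynomial C ℝ) : Prop :=
  ∃ (I : MvPolynomial {c // p c} ℤ) (g : MvPolynomial {c // p c} ℝ),
    aeval (glue p X fun _ => (0 : MvPolynomial _ ℝ)) P =
      (q : ℝ)⁻¹ • MvPolynomial.map (Int.castRingHom ℝ) I +
      aeval (fun c : {c // p c} =>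
        aeval (glue p X fun c' => MvPolynomial.C (((0 : C → ℤ) c' : ℤ) : ℝ)) (Φ c.1)) g ∧
      ∑ m ∈ g.support, coeff m g ^ 2 ≤ r ^ 2

theorem Tv.cg {C : Type} [Fintype C] [DecidableEq C] {Φ : C → MvPolynomial C ℝ} {p p' : C → Prop}
    [i : DecidablePred p] [i' : DecidablePred p'] {q : ℕ} {r : ℝ} {P : MvPolynomial C ℝ}
    (h : Tv Φ p q r P) (e : p = p') : Tv Φ p' q r P := by
  subst e
  obtain rfl : i = i' := Subsingleton.elim _ _
  exact h

theorem Tv.mono {C : Type} [Fintype C] [DecidableEq C] {Φ : C → MvPolynomial C ℝ} {p : C → Prop}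
    [DecidablePred p] {q : ℕ} {r r' : ℝ} {P : MvPolynomial C ℝ} (h : Tv Φ p q r P) (h0 : 0 ≤ r)
    (e : r ≤ r') : Tv Φ p q r' P :=
  let ⟨I, g, a, b⟩ := h
  ⟨I, g, a, b.trans (pow_le_pow_left₀ h0 e 2)⟩

theorem php_eq {T : TS Unit} (h : T.Ok) (st : T.C → ℕ) (k : T.C → ℤ) :
    Sy.php st k = (T.stg st).thp k := by
  have f : ∀ Φ : T.C → MvPolynomial T.C ℝ, Φ = T.Φ →
      @Eq (MvPolynomial T.C ℝ) (((T.setΦ Φ).stg st).thp k) ((T.stg st).thp k) := by
    rintro _ rfl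
    rfl
  exact f _ (top_Φ h)

theorem jbs_of {T : TS Unit} (h : T.Ok) {st : T.C → ℕ} {t q : ℕ} {k : T.C → ℤ} {r r' : ℝ}
    (j : Sy.JBs st t k q r) (h0 : 0 ≤ r) (e : r ≤ r') : T.JBS st t k q r' := by
  have a : Tv (C := T.C) T.top.Φ (fun c : T.C => st c < t) q r (Sy.php st k) := j
  rw [top_Φ h, php_eq h] at a
  exact (a.mono h0 e).cg (p' := fun c : T.C => (T.stg st).lev c < t) (i' := fun _ => Nat.decLt _ _)
    (_root_.funext fun c => congrArg (· < t) (TS.stg_lev (st := st) c).symm)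

theorem jbs_zero (T : TS Unit) (st : T.C → ℕ) (t : ℕ) (r : ℝ) : T.JBS st t 0 1 r := by
  have e : (T.stg st).thp (0 : T.C → ℤ) = 0 :=
    sum_eq_zero fun c _ => mul_eq_zero_of_left (by
      change MvPolynomial.C ((0 : ℤ) : ℝ) = 0
      simp) _
  refine ⟨0, 0, ((congrArg _ e).trans (map_zero _)).trans ?_, by simpa using sq_nonneg r⟩
  simp

end Brel

/-- **the staged form of B** -/
theorem brel {M : ℕ} (h : Sy.JBS M) : BREL M := by
  obtain ⟨K, h⟩ := h
  refine ⟨K + 2, fun T st t l b κ k hb hT hK hs hc h1 h2 hS hk hB => ?_⟩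
  have e0 : b ≤ b ^ (K + 1) := Nat.le_self_pow (by omega) b
  have e1 : b ^ K ≤ b ^ (K + 1) := Nat.pow_le_pow_right (by omega) (Nat.le_succ K)
  have e2 : b + b ^ K ≤ b ^ (K + 2) := by rw [pow_succ b (K + 1)]; nlinarith
  have e3 : (2 : ℝ) ^ b ^ K ≤ 2 ^ b ^ (K + 2) := pow_le_pow_right₀ (by norm_num) (by omega)
  by_cases z : k = 0
  · exact ⟨1, le_rfl, Nat.one_le_two_pow, z ▸ Brel.jbs_zero T st t _⟩
  obtain ⟨F, hF⟩ := Function.ne_iff.1 z
  have l1 : 1 ≤ l := (hk F hF).2 ▸ hT.toTri.lev_pos F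
  have lM : l ≤ M := (hk F hF).2 ▸ (hs.le F).2
  have e4 : (1 : ℝ) / 2 ^ b ^ (K + 2) ≤ κ / 2 ^ b ^ K :=
    calc (1 : ℝ) / 2 ^ b ^ (K + 2) ≤ 1 / 2 ^ (b + b ^ K) :=
          one_div_le_one_div_of_le (by positivity) (pow_le_pow_right₀ (by norm_num) e2)
      _ = 1 / 2 ^ b / 2 ^ b ^ K := by rw [pow_add, div_div]
      _ ≤ _ := by gcongr
  obtain ⟨q, q1, q2, j⟩ := h T st t l b (fun _ => κ) κ k hs hK hb l1 lM hc
    (by rwa [_root_.one_div_pow]) (fun _ => le_rfl) hk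
    (hS.mono (by omega) e4 (one_div_le_one_div_of_le (by positivity) e3)) (by rwa [_root_.one_div_pow])
  exact ⟨q, q1, q2.trans (Nat.pow_le_pow_right (by norm_num) (by omega)),
    Brel.jbs_of hT j (by positivity) e3⟩

end Crest.Agent.N49.Tw

end
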