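import Crest.Agent.N49.Rn.Loop
import Crest.Agent.N49.Tw.Pers

/-!
# Row 49 (helper38): the truncated Master lemma in the form used by REG-NEW
-/

set_option autoImplicit false

namespace Crest.Agent.N49.Tw.Rn

open TS

theorem sems {M : ℕ} (hc : ∃ c, CHAR M c) : ∃ C0, ∀ C, C0 ≤ C → SEMS M C := by
  obtain ⟨c, hc⟩ := hc
  obtain ⟨C0, h⟩ := rgs_all hc
  refine ⟨C0, fun C e T st t n a η ht hs h0 h1 k => ?_⟩
  rcases Nat.eq_zero_or_pos n with rfl | hn
  · intro τ S Ψ hS _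
    have := hS.empty
    have : IsEmpty ((T.lw S st Ψ).lt (t + 1)).C := ⟨fun p => this.elim p.1.1.2⟩
    exact mas_empty _ h0.le
  · exact h t ht Unit T st n a η hs hn h0 h1 (k.mono hs.tri h0 h1 e le_rfl le_rfl le_rfl)

end Crest.Agent.N49.Tw.Rn
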