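import Crest.Agent.N49.Rn.Defs
import Crest.Agent.N49.Tw.Base

/-! # Row 49 (helper80): linear parts of substitutions, blocks of graded matrices -/

set_option autoImplicit false

open Matrix MvPolynomial Finset

noncomputable section

namespace Crest.Agent.N49.Tw

open Po

/-- the chain rule for linear parts -/
theorem coeff_lin {C C' R : Type} [Fintype C] [CommRing R] {f : C → MvPolynomial C' R}
    (h : ∀ v, constantCoeff (f v) = 0) (w : C') (P : MvPolynomial C R) :
    coeff (Finsupp.single w 1) (aeval f P) =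
      ∑ v, coeff (Finsupp.single v 1) P * coeff (Finsupp.single w 1) (f v) := by
  classical
  have c : ∀ P : MvPolynomial C R, constantCoeff (aeval f P) = constantCoeff P := fun P => by
    induction P using MvPolynomial.induction_on with
    | C a => simp
    | add p q hp hq => simp only [map_add, hp, hq]
    | mul_X p a hp => simp [h]
  have d : ∀ P : MvPolynomial C' R,
      coeff (Finsupp.single w 1) P = constantCoeff (pderiv w P) := fun P => by
    simp [constantCoeff_eq, coeff_pderiv]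
  induction P using MvPolynomial.induction_on with
  | C a => simp [coeff_C, (Finsupp.single_ne_zero.2 one_ne_zero).symm]
  | add p q hp hq => simp only [map_add, coeff_add, hp, hq, add_mul, sum_add_distrib]
  | mul_X p a _ =>
    rw [map_mul, aeval_X, d, Derivation.leibniz, map_add, smul_eq_mul, smul_eq_mul, map_mul, map_mul,
      h, c, ← d, zero_mul, add_zero, sum_eq_single a (fun v _ n => ?_) fun z => absurd (mem_univ _) z]
    · rw [coeff_mul_X', if_pos (by simp), tsub_self]; rfl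
    · rw [coeff_mul_X', if_neg (by simpa using n.symm), zero_mul]

theorem cc_hom {C R : Type} [CommRing R] {w : C → ℕ} {n : ℕ} {P : MvPolynomial C R}
    (h : P.IsWeightedHomogeneous w n) (hn : n ≠ 0) : constantCoeff P = 0 :=
  of_not_not fun z => hn (by rw [← h z, map_zero])

theorem coeff_single_hom {C R : Type} [CommRing R] {w : C → ℕ} {n : ℕ} {P : MvPolynomial C R}
    (h : P.IsWeightedHomogeneous w n) {c : C} (z : coeff (Finsupp.single c 1) P ≠ 0) : w c = n := by
  rw [← h z, Finsupp.weight_single, one_smul]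

section blk
variable {ι I : Type} [Fintype ι] [DecidableEq ι] [Fintype I] [DecidableEq I] {lev : ι → ℕ}
  {M : Matrix ι ι ℝ} {f : I → ι} {j : ℕ}

omit [DecidableEq I] in
theorem sum_lev (hf : Function.Injective f) (hr : ∀ i, i ∈ Set.range f ↔ lev i = j) {g : ι → ℝ}
    (hg : ∀ i, lev i ≠ j → g i = 0) : ∑ i, g i = ∑ x, g (f x) := by
  rw [← sum_image (s := univ) fun _ _ _ _ e => hf e]
  exact (sum_subset (subset_univ _) fun i _ k => hg i fun e => k (by simpa using (hr i).2 e)).symm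

omit [DecidableEq I] in
theorem blk_sub_mul (h : Rw.Blk lev M) (hf : Function.Injective f)
    (hr : ∀ i, i ∈ Set.range f ↔ lev i = j) {κ κ' : Type} (N : Matrix ι κ ℝ) (g : κ' → κ) :
    (M * N).submatrix f g = M.submatrix f f * N.submatrix f g := by
  ext x y
  simp only [submatrix_apply, mul_apply]
  exact sum_lev hf hr fun i n => by
    rw [h _ _ fun e => n (e.symm.trans ((hr _).1 ⟨x, rfl⟩)), zero_mul]

theorem blk_sub_one (h : Rw.Blk lev M) (hd : M.det ≠ 0) (hf : Function.Injective f)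
    (hr : ∀ i, i ∈ Set.range f ↔ lev i = j) : M.submatrix f f * M⁻¹.submatrix f f = 1 := by
  rw [← blk_sub_mul h hf hr, mul_nonsing_inv _ hd.isUnit, submatrix_one _ hf]

theorem blk_sub_inv (h : Rw.Blk lev M) (hd : M.det ≠ 0) (hf : Function.Injective f)
    (hr : ∀ i, i ∈ Set.range f ↔ lev i = j) : (M.submatrix f f)⁻¹ = M⁻¹.submatrix f f :=
  inv_eq_right_inv (blk_sub_one h hd hf hr)

theorem blk_sub_det (h : Rw.Blk lev M) (hd : M.det ≠ 0) (hf : Function.Injective f)
    (hr : ∀ i, i ∈ Set.range f ↔ lev i = j) : (M.submatrix f f).det ≠ 0 :=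
  (isUnit_det_of_right_inverse (blk_sub_one h hd hf hr)).ne_zero

theorem blk_sub_D (h : Rw.Blk lev M) (hd : M.det ≠ 0) (hf : Function.Injective f)
    (hr : ∀ i, i ∈ Set.range f ↔ lev i = j) :
    (M⁻¹ * M⁻¹ᵀ).submatrix f f = (M.submatrix f f)⁻¹ * (M.submatrix f f)⁻¹ᵀ := by
  rw [blk_sub_mul (blk_inv h) hf hr, blk_sub_inv h hd hf hr, transpose_submatrix]

omit [DecidableEq I] in
theorem vecMul_lev (hf : Function.Injective f) (hr : ∀ i, i ∈ Set.range f ↔ lev i = j)
    {k : ι → ℝ} (hk : ∀ i, lev i ≠ j → k i = 0) {κ : Type} (N : Matrix ι κ ℝ) :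
    k ᵥ* N = (k ∘ f) ᵥ* N.submatrix f id :=
  funext fun _ => sum_lev hf hr fun i n => by simp [hk i n]

omit [DecidableEq I] in
theorem qf_lev' (hf : Function.Injective f) (hr : ∀ i, i ∈ Set.range f ↔ lev i = j)
    {k : ι → ℝ} (hk : ∀ i, lev i ≠ j → k i = 0) (N : Matrix ι ι ℝ) :
    qf N k = qf (N.submatrix f f) (k ∘ f) := by
  rw [qf, dotProduct, sum_lev hf hr fun i n => by rw [hk i n, zero_mul]]
  refine sum_congr rfl fun x _ => congrArg _ ?_
  exact sum_lev hf hr fun i n => by simp [hk i n]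

/-- a graded matrix with invertible blocks is invertible -/
theorem blk_det_ne (h : Rw.Blk lev M) (hd : ∀ j, (M.submatrix (Subtype.val : {i // lev i = j} → ι)
    Subtype.val).det ≠ 0) : M.det ≠ 0 := fun z => by
  obtain ⟨v, v0, hv⟩ := exists_mulVec_eq_zero_iff.2 z
  obtain ⟨i, hi⟩ := Function.ne_iff.1 v0
  refine hd (lev i) (exists_mulVec_eq_zero_iff.1 ⟨fun x => v x.1,
    Function.ne_iff.2 ⟨⟨i, rfl⟩, hi⟩, funext fun x => ?_⟩)
  refine Eq.trans ?_ (congrFun hv x.1)
  exact (sum_lev (lev := lev) (j := lev i) (g := fun y => M x.1 y * v y) Subtype.val_injective (by simp)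
    fun y n => by rw [h _ _ fun e => n (e.symm.trans x.2), zero_mul]).symm

end blk

theorem th_rx {d e : Type} [Fintype d] [Fintype e] (M : Matrix d d ℝ) (f : e ≃ d) :
    th (M.submatrix f f) 0 = th M 0 := by
  rw [th, th, ← (Equiv.arrowCongr f (Equiv.refl ℤ)).tsum_eq]
  refine tsum_congr fun n => ?_
  simp only [sub_zero, gs, qf, dotProduct, mulVec, ← f.sum_comp, zc]
  simp

/-- scaling of a block -/
theorem th_inv_smul {d : Type} [Fintype d] [DecidableEq d] {A : Matrix d d ℝ} (h : A.det ≠ 0)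
    {m : ℝ} (h0 : 0 < m) (h1 : m ≤ 1) :
    th ((m⁻¹ • A)⁻¹ * (m⁻¹ • A)⁻¹ᵀ) 0 ≤ m⁻¹ ^ Fintype.card d * th (A⁻¹ * A⁻¹ᵀ) 0 := by
  have e : (m⁻¹ • A)⁻¹ = m • A⁻¹ := inv_eq_right_inv (by
    rw [smul_mul_smul_comm, mul_nonsing_inv _ h.isUnit, inv_mul_cancel₀ h0.ne', one_smul])
  have p : (A⁻¹ * A⁻¹ᵀ).PosDef := by
    simpa using posDef_conj (PosDef.one (n := d) (R := ℝ)) (B := A⁻¹ᵀ)
      (mulVec_injective_iff_isUnit.2 ((isUnit_iff_isUnit_det _).2
        (by rw [det_transpose]; exact isUnit_nonsing_inv_det _ h.isUnit)))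
  have := th_scale p (mul_pos h0 h0) (mul_le_one₀ h1 h0.le h1) 0
  rwa [Real.sqrt_mul_self h0.le, ← smul_mul_smul_comm, ← transpose_smul, ← e] at this

namespace Nw

variable {T0 : TS Unit} {E : Nw T0} {s : ℕ}

theorem A_blk' (h : ∀ n, (E.Φ n).IsWeightedHomogeneous E.lev (E.lv n)) : Rw.Blk E.lv E.A :=
  fun n _ e => of_not_not fun z => e (coeff_single_hom (h n) z).symm

theorem Wf.A_blk (h : E.Wf s) : Rw.Blk E.lv E.A := A_blk' h.hom

theorem Wf.ct_eq (h : E.Wf s) {I : Type} [Fintype I] [DecidableEq I] {f : I → E.N} {j : ℕ}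
    (hf : Function.Injective f) (hr : ∀ n, n ∈ Set.range f ↔ E.lv n = j) :
    E.ct j = th ((E.A.submatrix f f)⁻¹ * (E.A.submatrix f f)⁻¹ᵀ) 0 := by
  rw [← blk_sub_D h.A_blk h.det hf hr, ct, ← th_rx _ ((Equiv.ofInjective f hf).trans
    (Equiv.subtypeEquivRight hr))]
  rfl


theorem R_eq {I : Type} [Fintype I] {f : I → E.N} {j : ℕ} (hf : Function.Injective f)
    (hr : ∀ n, n ∈ Set.range f ↔ E.lv n = j) : E.R j = Fintype.card I := by
  rw [R, ← Fintype.card_subtype]
  exact Fintype.card_congr ((Equiv.ofInjective f hf).trans (Equiv.subtypeEquivRight hr)).symm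

end Nw

end Crest.Agent.N49.Tw

end
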