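import Crest.Agent.N49.Rn.All
import Crest.Agent.N49.Rn.Lin

/-!
# Row 49 (helper38): REG-NEW with a prescribed divisor of the dilation
-/

set_option autoImplicit false

open Matrix MvPolynomial Finset

noncomputable section

namespace Crest.Agent.N49.Tw

open Po TS

/-- `REGNEW` with `q ∣ ν` -/
def REGNEWQ (s M0 C : ℕ) : Prop := ∃ K : ℕ, ∀ (T0 : TS Unit) (st0 : T0.C → ℕ) (E : Nw T0)
  (b q : ℕ), 2 ≤ b → 1 ≤ q → q ≤ 2 ^ b → Old T0 st0 M0 s → E.Wf s → 1 / 2 ^ b ≤ E.μ →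
  Fintype.card T0.C ≤ 2 ^ b → Fintype.card E.N ≤ b → (∀ l, E.ct l ≤ 2 ^ b) →
  T0.RgS st0 M0 C (b ^ K) (1 / 2 ^ b ^ K) (1 / 2 ^ b ^ K) →
  ∃ (E' : Nw T0) (ν : ℕ) (ρ : E.N → MvPolynomial (T0.C ⊕ E'.N) ℤ)
    (G : E.N → MvPolynomial (T0.C ⊕ E'.N) ℝ), q ∣ ν ∧ E'.Wf s ∧
    E.Hom s E' ν ((Fintype.card E.N + 1) ^ (s * Fintype.card E.N * s)) ρ G ∧
    1 / 2 ^ b ^ K ≤ E'.μ ∧ (∀ l, E'.ct l ≤ 2 ^ b ^ K) ∧
    E'.T.RgS (E'.st st0 M0 s) (M0 * (s + 1) ^ s) C b (1 / 2 ^ b) (1 / 2 ^ b)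

namespace Rn

variable {s M0 : ℕ} {T0 : TS Unit}

/-- narrow everything by the factor `m` -/
abbrev scl (E : Nw T0) (m : ℝ) : Nw T0 where
  N := E.N
  lv := E.lv
  Φ n := m⁻¹ • E.Φ n
  μ := m * E.μ

theorem scl_A (E : Nw T0) (m : ℝ) : (scl E m).A = m⁻¹ • E.A := by
  ext n n'; exact coeff_smul _ m⁻¹ (E.Φ n)

theorem hom_smul {R K C : Type} [CommRing R] [Monoid K] [DistribMulAction K R] {w : C → ℕ} {l : ℕ}
    {P : MvPolynomial C R} (h : P.IsWeightedHomogeneous w l) (a : K) :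
    (a • P).IsWeightedHomogeneous w l := fun d k => h fun z => k (by rw [coeff_smul, z, smul_zero])

theorem scl_wf {E : Nw T0} (h : E.Wf s) {m : ℝ} (h0 : 0 < m) (h1 : m ≤ 1) : (scl E m).Wf s where
  pos := mul_pos h0 h.pos
  le := mul_le_one₀ h1 h.pos.le h.le
  lv := h.lv
  hom n := hom_smul (h.hom n) _
  det := by
    rw [scl_A]
    exact (det_smul E.A m⁻¹).trans_ne (mul_ne_zero (by positivity) h.det)

theorem scl_ct {E : Nw T0} (h : E.Wf s) {m : ℝ} (h0 : 0 < m) (h1 : m ≤ 1) (l : ℕ) :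
    (scl E m).ct l ≤ m⁻¹ ^ E.R l * E.ct l := by
  have hr : ∀ n, n ∈ Set.range (Subtype.val : {n // E.lv n = l} → E.N) ↔ E.lv n = l := by simp
  rw [(scl_wf h h0 h1).ct_eq Subtype.val_injective hr, h.ct_eq Subtype.val_injective hr,
    Nw.R_eq Subtype.val_injective hr, scl_A]
  exact th_inv_smul (blk_sub_det h.A_blk h.det Subtype.val_injective hr) h0 h1

theorem scl_hom {E : Nw T0} (h : E.Wf s) {q : ℕ} (hq : 1 ≤ q) :
    E.Hom s (scl E ((q : ℝ) ^ s)⁻¹) q 1 (fun n => q ^ E.lv n • X (.inr n))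
      fun n => ((q : ℝ) ^ E.lv n * ((q : ℝ) ^ s)⁻¹) • X (.inr n) where
  one := hq
  mu := (mul_inv_cancel_left₀ (by positivity) _).le
  hρ n := hom_smul (isWeightedHomogeneous_X ℤ E.lev (.inr n)) _
  hG n := hom_smul (isWeightedHomogeneous_X ℝ E.lev (.inr n)) _
  eq n := by
    have : (fun c => map (Int.castRingHom ℝ) (E.sb (scl E ((q : ℝ) ^ s)⁻¹) q
        (fun n => q ^ E.lv n • X (.inr n)) c)) =
        fun c => (q : MvPolynomial (T0.C ⊕ E.N) ℝ) ^ E.lev c * X c :=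
      funext fun c => by cases c <;> simp [Nw.sb, Nw.lev]
    rw [this, aeval_dil (h.hom n), aeval_X_left_apply, map_smul, aeval_X]
    change _ = _ • ((q : ℝ) ^ s)⁻¹⁻¹ • E.Φ n
    rw [smul_smul, mul_inv_cancel_right₀ (by positivity), smul_eq_C_mul, map_pow, map_natCast]
  l1 n := by
    have a : (1 : ℝ) ≤ q := by exact_mod_cast hq
    rw [l1_smul, l1_X, mul_one, abs_of_nonneg (by positivity), ← div_eq_mul_inv,
      div_le_one (by positivity)]
    exact pow_le_pow_right₀ a (h.lv n).2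
  R _ := le_rfl

theorem regnewq {C : ℕ} (h : REGNEW s M0 C) : REGNEWQ s M0 C := by
  obtain ⟨K, h⟩ := h
  refine ⟨(s + 2) * K, fun T0 st0 E b q hb q1 q2 ho hw hμ hC hN hc h0 => ?_⟩
  have a : (1 : ℝ) ≤ (q : ℝ) ^ s := one_le_pow₀ (by exact_mod_cast q1)
  have a' : (q : ℝ) ^ s ≤ 2 ^ (b * s) := by
    rw [pow_mul]; exact pow_le_pow_left₀ (by positivity) (by exact_mod_cast q2) _
  have m0 : 0 < ((q : ℝ) ^ s)⁻¹ := by positivity
  have m1 := inv_le_one_of_one_le₀ a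
  have e : b * s * b + b ≤ b ^ (s + 2) := by
    have : s + 1 ≤ b ^ s := Nat.lt_two_pow_self.trans_le (Nat.pow_le_pow_left hb s)
    have := Nat.mul_le_mul_right (b * b) this
    rw [pow_add]; nlinarith
  have e' : b * s ≤ b * s * b := Nat.le_mul_of_pos_right _ (by omega)
  rw [pow_mul b] at h0 ⊢
  obtain ⟨E', ν, ρ, G, g1, g2, g3, g4, g5⟩ := h T0 st0 (scl E ((q : ℝ) ^ s)⁻¹) (b ^ (s + 2))
    (by omega) ho (scl_wf hw m0 m1) (by
      refine (half_le (show b * s + b ≤ _ by omega)).trans ?_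
      rw [pow_add, ← one_div_mul_one_div, one_div]
      exact mul_le_mul (inv_anti₀ (by positivity) a') hμ (by positivity) m0.le)
    (hC.trans (Nat.pow_le_pow_right two_pos (by omega))) (hN.trans (by omega)) (fun l => by
      refine (scl_ct hw m0 m1 l).trans (le_trans ?_ (two_le e))
      rw [inv_inv, pow_add, pow_mul]
      exact mul_le_mul ((pow_le_pow_right₀ a ((R_le E l).trans hN)).trans
        (pow_le_pow_left₀ (by positivity) a' _)) (hc l) (tsum_nonneg fun _ => (Real.exp_pos _).le)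
        (by positivity)) h0
  obtain ⟨ρ', G', g6⟩ := ncmp s M0 T0 st0 E _ E' q ν _ _ _ _ ρ G ho hw (scl_wf hw m0 m1) g1
    (one_le_pow₀ (by simp)) (scl_hom hw q1) g2
  refine ⟨E', _, ρ', G', dvd_mul_right _ _, g1, by rwa [one_mul, ← pow_mul] at g6, g3, g4,
    g5.mono (nstg s M0 T0 st0 E' ho g1).1.stg.tri (by positivity) (half_le_one _) le_rfl (by omega)
      (half_le (by omega)) (half_le (by omega))⟩

end Rn

end Crest.Agent.N49.Tw

end
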