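import Crest.Agent.N49.Rn.L1
import Crest.Agent.N49.Rf.Wl

/-! # Row 49 (helper26): composition of two regularisation steps -/

set_option autoImplicit false

open MvPolynomial Finset

noncomputable section

namespace Crest.Agent.N49.Tw

theorem hom_smulX {C R S : Type} [CommRing R] [Monoid S] [DistribMulAction S R] (w : C → ℕ) (a : S)
    (c : C) : (a • X c : MvPolynomial C R).IsWeightedHomogeneous w (w c) := fun m k =>
  isWeightedHomogeneous_X R w c fun e => k (by rw [coeff_smul, e, smul_zero])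

namespace Nw

variable {T0 : TS Unit} {E E' E'' : Nw T0} {s ν ν' : ℕ} {x : ℝ}

theorem Hom.sb_hom {ρ G} (h : E.Hom s E' ν x ρ G) (c : T0.C ⊕ E.N) :
    (E.sb E' ν ρ c).IsWeightedHomogeneous E'.lev (E.lev c) := by
  rcases c with c | n
  · exact hom_smulX E'.lev (ν ^ T0.lev c) (.inl c)
  · exact h.hρ n

theorem sb_comp (ρ : E.N → MvPolynomial (T0.C ⊕ E'.N) ℤ) (ρ' : E'.N → MvPolynomial (T0.C ⊕ E''.N) ℤ)
    (c : T0.C ⊕ E.N) : E.sb E'' (ν * ν') (fun n => aeval (E'.sb E'' ν' ρ') (ρ n)) c =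
      aeval (E'.sb E'' ν' ρ') (E.sb E' ν ρ c) := by
  rcases c with c | n
  · simp only [sb, Sum.elim_inl]
    rw [map_nsmul, aeval_X, mul_pow, mul_smul, Sum.elim_inl]
  · simp only [sb, Sum.elim_inr]

/-- the old errors are dilated -/
theorem sb_old (ok : T0.Ok) (h0 : E'.μ ≠ 0) (ρ : E.N → MvPolynomial (T0.C ⊕ E'.N) ℤ) (c : T0.C) :
    aeval (fun c => map (Int.castRingHom ℝ) (E.sb E' ν ρ c)) (E.Φa (.inl c)) =
      ((ν : ℝ) ^ T0.lev c * E'.μ / E.μ) • E'.Φa (.inl c) := by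
  simp only [Φa, Sum.elim_inl]
  have e : ((fun c => map (Int.castRingHom ℝ) (E.sb E' ν ρ c)) ∘ Sum.inl) = fun c' =>
      (MvPolynomial.C (ν : ℝ) : MvPolynomial (T0.C ⊕ E'.N) ℝ) ^ T0.lev c' * (X ∘ Sum.inl) c' := by
    funext c'
    simp only [Function.comp, sb, Sum.elim_inl]
    rw [map_nsmul, map_X, nsmul_eq_mul, Nat.cast_pow, map_natCast]
  rw [map_smul, aeval_rename, e, aeval_dil (TS.Ok.hom_lev ok c), ← rename_eq_aeval, ← map_pow,
    ← smul_eq_C_mul, smul_smul, smul_smul]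
  congr 1
  field_simp

theorem Hom.coef_le {ρ G} (h : E.Hom s E' ν x ρ G) (w : E.Wf s) (w' : E'.Wf s) {l : ℕ} (e : l ≤ s) :
    |(ν : ℝ) ^ l * E'.μ / E.μ| ≤ 1 := by
  have := w.pos
  have := w'.pos
  rw [abs_of_nonneg (by positivity), div_le_one w.pos]
  exact (mul_le_mul_of_nonneg_right (pow_le_pow_right₀ (Nat.one_le_cast.2 h.one) e)
    w'.pos.le).trans h.mu

end Nw

theorem ncmp : NCMP := fun s M0 T0 st0 E E' E'' ν ν' x x' ρ G ρ' G' o w w' w'' hx h h' => by
  let H : T0.C ⊕ E'.N → MvPolynomial (T0.C ⊕ E''.N) ℝ :=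
    Sum.elim (fun c => ((ν' : ℝ) ^ T0.lev c * E''.μ / E'.μ) • X (.inl c)) G'
  have hH : ∀ c, (H c).IsWeightedHomogeneous E''.lev (E'.lev c) := by
    rintro (c | n)
    · exact hom_smulX E''.lev _ (.inl c)
    · exact h'.hG n
  have lH : ∀ c, l1 (H c) ≤ x' := by
    rintro (c | n)
    · simp only [H, Sum.elim_inl]
      rw [l1_smul, l1_X, mul_one]
      exact (h'.coef_le w' w'' (o.lev c)).trans hx
    · exact h'.l1 n
  have eH : (fun c => aeval (fun c => map (Int.castRingHom ℝ) (E'.sb E'' ν' ρ' c)) (E'.Φa c)) =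
      fun c => aeval E''.Φa (H c) := by
    funext c
    rcases c with c | n
    · rw [Nw.sb_old o.ok w''.pos.ne']
      simp only [H, Sum.elim_inl]
      rw [map_smul, aeval_X]
    · exact h'.eq n
  refine ⟨fun n => aeval (E'.sb E'' ν' ρ') (ρ n), fun n => aeval H (G n),
    Nat.mul_pos h.one h'.one, ?_, fun n => Rf.hom_aeval h'.sb_hom (h.hρ n),
    fun n => Rf.hom_aeval hH (h.hG n), fun n => ?_, fun n => ?_, fun l => (h'.R l).trans (h.R l)⟩
  · rw [Nat.cast_mul, mul_pow, mul_assoc]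
    exact (mul_le_mul_of_nonneg_left h'.mu (by positivity)).trans h.mu
  · simp only [Nw.sb_comp ρ ρ', map_aeval_int]
    rw [← aeval_aeval, h.eq n, aeval_aeval, aeval_aeval, eH]
  · refine (l1_aeval_hom lH hx (w := E'.lev) ?_ (h.hG n) (w.lv n).2).trans
      (mul_le_mul_of_nonneg_right (h.l1 n) (by positivity))
    rintro (c | n)
    · exact o.ok.toTri.lev_pos c
    · exact (w'.lv n).1

end Crest.Agent.N49.Tw

end
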