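import Crest.Agent.N49.Rn.Nv0

/-! Row 49 (helper42): one event of REG-NEW. -/

set_option autoImplicit false
set_option linter.unusedSectionVars false
open Matrix MvPolynomial Finset
noncomputable section
namespace Crest.Agent.N49.Tw
open Po
namespace Nv

theorem hlev {T : TS Unit} (h : T.Ok) (c : T.C) : (T.Φ c).IsWeightedHomogeneous T.lev (T.lev c) :=
  fun m k => by
    rw [TS.lev, ← h.hom c k]
    simp [Finsupp.weight_apply, Finsupp.sum, TS.lev]

variable {T0 : TS Unit} (E : Nw T0) (l r ν : ℕ)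

abbrev NN : Type := {n // E.lv n ≠ l} ⊕ Fin r
def lw : NN E l r → ℕ := Sum.elim (fun n => E.lv n.1) fun _ => l
def xv (R : Type) [CommRing R] : T0.C ⊕ E.N → MvPolynomial (T0.C ⊕ NN E l r) R :=
  Sum.elim (fun c => X (.inl c)) fun n => if h : E.lv n = l then 0 else X (.inr (.inl ⟨n, h⟩))

variable {E l r} (B : Matrix {n // E.lv n = l} (Fin r) ℤ) (b : E.N → ℤ)
  (I : MvPolynomial (T0.C ⊕ E.N) ℤ) (O : Matrix (Fin r) {n // E.lv n = l} ℝ) (m : ℝ)

def ro (n : E.N) : MvPolynomial (T0.C ⊕ NN E l r) ℤ :=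
  if h : E.lv n = l then ∑ j, B ⟨n, h⟩ j • X (.inr (.inr j)) +
    b n • ((ν : ℤ) ^ (l - 1) • bind₁ (xv E l r ℤ) I)
  else ((if E.lv n < l then ν ^ E.lv n else 1 : ℕ) : ℤ) • xv E l r ℤ (.inr n)
def ff (v : T0.C ⊕ E.N) : MvPolynomial (T0.C ⊕ NN E l r) ℝ :=
  map (Int.castRingHom ℝ) (Sum.elim (fun c => ν ^ T0.lev c • X (.inl c)) (ro ν B b I) v)
def ph : NN E l r → MvPolynomial (T0.C ⊕ NN E l r) ℝ :=
  Sum.elim (fun n => (if E.lv n.1 < l then ((ν : ℝ) ^ E.lv n.1 * m)⁻¹ else 1) •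
    aeval (ff ν B b I) (E.Φ n.1)) fun j => ∑ n, O j n • aeval (ff ν B b I) (E.Φ n.1)
def pa : T0.C ⊕ NN E l r → MvPolynomial (T0.C ⊕ NN E l r) ℝ :=
  Sum.elim (fun c => (m * E.μ)⁻¹ • rename .inl (T0.Φ c)) (ph ν B b I O m)
def AA : Matrix (NN E l r) (NN E l r) ℝ :=
  Matrix.of fun n n' => coeff (Finsupp.single (.inr n') 1) (ph ν B b I O m n)
def EE : Nw T0 := ⟨NN E l r, lw E l r, ph ν B b I O m, m * E.μ⟩

variable {ν B b I O m}

theorem map_xv (v) : map (Int.castRingHom ℝ) (xv E l r ℤ v) = xv E l r ℝ v := by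
  rcases v with c | n
  · simp [xv]
  · simp only [xv, Sum.elim_inr]; split_ifs <;> simp

theorem xv_hom (R : Type) [CommRing R] (v) :
    (xv E l r R v).IsWeightedHomogeneous (Sum.elim T0.lev (lw E l r)) (E.lev v) := by
  rcases v with c | n
  · exact isWeightedHomogeneous_X R _ _
  · simp only [xv, Sum.elim_inr]
    split_ifs
    exacts [isWeightedHomogeneous_zero R _ _, isWeightedHomogeneous_X R _ _]

theorem ro_hom (hI : I.IsWeightedHomogeneous E.lev l) (n : E.N) :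
    (ro ν B b I n).IsWeightedHomogeneous (Sum.elim T0.lev (lw E l r)) (E.lv n) := by
  unfold ro
  by_cases h : E.lv n = l
  · rw [dif_pos h, ← aeval_eq_bind₁]
    have := Rf.hom_aeval (xv_hom (E := E) (l := l) (r := r) ℤ) hI
    refine (IsWeightedHomogeneous.sum _ _ _ fun j _ => hsm ?_ _).add (hsm (hsm ?_ _) _) <;> rw [h]
    exacts [isWeightedHomogeneous_X ℤ _ _, this]
  · rw [dif_neg h]; exact hsm (xv_hom ℤ (.inr n)) _

theorem ff_inl (c : T0.C) : ff ν B b I (.inl c) = (ν : ℝ) ^ T0.lev c • X (.inl c) := by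
  simp [ff, smul_eq_C_mul]

theorem ff_ne {n : E.N} (h : E.lv n ≠ l) : ff ν B b I (.inr n) =
    (if E.lv n < l then (ν : ℝ) ^ E.lv n else 1) • X (.inr (.inl ⟨n, h⟩)) := by
  simp only [ff, ro, Sum.elim_inr, dif_neg h, xv]
  split_ifs <;> simp [smul_eq_C_mul]

theorem ff_eq (n : {n // E.lv n = l}) : ff ν B b I (.inr n.1) =
    ∑ j, (B n j : ℝ) • X (.inr (.inr j)) + (b n : ℝ) • ((ν : ℝ) ^ (l - 1) •
      aeval (xv E l r ℝ) (map (Int.castRingHom ℝ) I)) := by
  simp only [ff, ro, Sum.elim_inr, dif_pos n.2, map_add, map_sum, smul_eq_C_mul, map_mul, map_C,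
    map_X, map_bind₁, map_xv, aeval_eq_bind₁]
  simp

theorem ff_low {v} (h : ∀ n, v = .inr n → E.lv n < l) :
    ff ν B b I v = (ν : ℝ) ^ E.lev v • xv E l r ℝ v := by
  rcases v with c | n
  · exact ff_inl c
  · rw [ff_ne (h n rfl).ne, if_pos (h n rfl)]; simp [xv, (h n rfl).ne, Nw.lev]

theorem ff_hom (hI : I.IsWeightedHomogeneous E.lev l) (v) :
    (ff ν B b I v).IsWeightedHomogeneous (Sum.elim T0.lev (lw E l r)) (E.lev v) := by
  rcases v with c | n
  · rw [ff_inl]; exact hsm (isWeightedHomogeneous_X ℝ _ _) _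
  · exact hmap (ro_hom hI n)

theorem ee_hom {s : ℕ} (w : E.Wf s) (hI : I.IsWeightedHomogeneous E.lev l) (n) :
    (ph ν B b I O m n).IsWeightedHomogeneous (Sum.elim T0.lev (lw E l r)) (lw E l r n) := by
  rcases n with n | j
  · exact hsm (Rf.hom_aeval (ff_hom hI) (w.hom n.1)) _
  · exact IsWeightedHomogeneous.sum _ _ _ fun n _ =>
      hsm (Rf.hom_aeval (ff_hom hI) (by have := w.hom n.1; rwa [n.2] at this)) _

theorem sg_low (o : T0.Ok) (h0 : 1 ≤ ν) (m0 : 0 < m) {v} (h : ∀ n, v = .inr n → E.lv n < l) :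
    aeval (ff ν B b I) (E.Φa v) =
      aeval (pa ν B b I O m) (((ν : ℝ) ^ E.lev v * m) • xv E l r ℝ v) := by
  have : (ν : ℝ) ≠ 0 := by positivity
  rcases v with c | n
  · simp only [Nw.Φa, xv, Sum.elim_inl, map_smul, aeval_X, aeval_rename, Function.comp_def, ff_inl,
      ae_sc (hlev o c), smul_smul, pa, Nw.lev]
    rw [rename_eq_aeval]
    congr 1
    field_simp
  · simp only [Nw.Φa, xv, Sum.elim_inr, dif_neg (h n rfl).ne, map_smul, aeval_X, pa, ph, Sum.elim_inl,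
      if_pos (h n rfl), smul_smul, Nw.lev]
    rw [mul_inv_cancel₀ (by positivity), one_smul]

theorem co_lin {s : ℕ} (o : T0.Ok) (w : E.Wf s) (hI : I.IsWeightedHomogeneous E.lev l) (n : E.N)
    (x : NN E l r) : coeff (Finsupp.single (.inr x) 1) (aeval (ff ν B b I) (E.Φ n)) =
      ∑ n', E.A n n' * coeff (Finsupp.single (.inr x) 1) (ff ν B b I (.inr n')) := by
  rw [coeff_lin (fun v => cc_hom (ff_hom hI v) (by
    rcases v with c | n
    · exact fun e => o.ne c ((Finsupp.degree_eq_zero_iff _).1 e)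
    · exact Nat.one_le_iff_ne_zero.1 (w.lv n).1)), Fintype.sum_sum_type]
  simp [ff_inl, coeff_X, Finsupp.single_eq_single_iff, Nw.A]

theorem co_J (hI : I.IsWeightedHomogeneous E.lev l) (hv : ∀ n, .inr n ∈ I.vars → E.lv n < l)
    (x : NN E l r) :
    coeff (Finsupp.single (.inr x) 1) (bind₁ (xv E l r ℝ) (map (Int.castRingHom ℝ) I)) = 0 := by
  by_contra z
  have e := coeff_single_hom (Rf.hom_aeval (xv_hom ℝ) (hmap hI)) (by rwa [aeval_eq_bind₁])
  obtain ⟨v, a, k⟩ := mem_vars_bind₁ (xv E l r ℝ) _ ((mem_vars_iff_mem_support _).2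
    ⟨_, mem_support_iff.2 z, by simp⟩ : Sum.inr x ∈ _)
  rcases v with c | n
  · simp [xv] at k
  · have := hv n (vars_map _ _ a)
    simp only [xv, Sum.elim_inr, dif_neg this.ne, vars_X, mem_singleton, Sum.inr.injEq] at k
    subst k
    exact this.ne e

theorem A_ll {s : ℕ} (o : T0.Ok) (w : E.Wf s) (hI : I.IsWeightedHomogeneous E.lev l)
    (hv : ∀ n, .inr n ∈ I.vars → E.lv n < l) (h0 : 1 ≤ ν) (n n' : {n // E.lv n ≠ l}) :
    AA ν B b I O m (.inl n) (.inl n') = (if E.lv n.1 < l then m⁻¹ else 1) * E.A n.1 n'.1 := by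
  have : (ν : ℝ) ≠ 0 := by positivity
  simp only [AA, ph, of_apply, Sum.elim_inl, coeff_smul, co_lin o w hI, smul_eq_mul]
  rw [sum_eq_single n'.1 (fun x _ e => ?_) (by simp), ff_ne n'.2]
  · by_cases a : E.lv n.1 = E.lv n'.1
    · simp only [← a, coeff_smul, coeff_X, smul_eq_mul]
      split_ifs <;> field_simp
    · simp [w.A_blk _ _ a]
  · by_cases a : E.lv x = l
    · simp [ff_eq ⟨x, a⟩, co_J hI hv, coeff_sum, coeff_X, Finsupp.single_eq_single_iff]
    · rw [ff_ne a, coeff_smul]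
      simp [coeff_X, Finsupp.single_eq_single_iff, Subtype.ext_iff, e]

theorem A_rr {s : ℕ} (o : T0.Ok) (w : E.Wf s) (hI : I.IsWeightedHomogeneous E.lev l)
    (hv : ∀ n, .inr n ∈ I.vars → E.lv n < l) : (AA ν B b I O m).submatrix .inr .inr =
      O * E.A.submatrix (Subtype.val : {n // E.lv n = l} → E.N)
        (Subtype.val : {n // E.lv n = l} → E.N) * rl B := by
  rw [Matrix.mul_assoc]
  ext j j'
  simp only [AA, ph, of_apply, Sum.elim_inr, coeff_sum, coeff_smul, co_lin o w hI, smul_eq_mul,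
    submatrix_apply, mul_apply]
  refine sum_congr rfl fun n _ => congrArg _ ?_
  rw [sum_st (p := fun n => E.lv n = l) fun x a => by
    rw [ff_ne a, coeff_smul]; simp [coeff_X, Finsupp.single_eq_single_iff]]
  refine sum_congr rfl fun x _ => congrArg _ ?_
  simp [ff_eq, co_J hI hv, coeff_sum, coeff_X, Finsupp.single_eq_single_iff, rl]

theorem A_lv {s : ℕ} (o : T0.Ok) (w : E.Wf s) (hI : I.IsWeightedHomogeneous E.lev l)
    (hv : ∀ n, .inr n ∈ I.vars → E.lv n < l) (h0 : 1 ≤ ν) {j : ℕ} (h : j ≠ l) :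
    (AA ν B b I O m).submatrix (fun n : {n // E.lv n = j} => .inl ⟨n.1, n.2.trans_ne h⟩)
      (fun n : {n // E.lv n = j} => .inl ⟨n.1, n.2.trans_ne h⟩) =
      (if j < l then m⁻¹ else 1) • E.A.submatrix Subtype.val Subtype.val := by
  ext n n'
  simp only [submatrix_apply, A_ll o w hI hv h0, n.2, Matrix.smul_apply, smul_eq_mul]

theorem inj_l {j : ℕ} (h : j ≠ l) : Function.Injective
    fun n : {n // E.lv n = j} => (.inl ⟨n.1, n.2.trans_ne h⟩ : NN E l r) :=
  fun _ _ e => Subtype.ext (Subtype.mk.inj (Sum.inl.inj e))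
theorem rng_l {j : ℕ} (h : j ≠ l) (x : NN E l r) : x ∈ Set.range (fun n : {n // E.lv n = j} =>
    (.inl ⟨n.1, n.2.trans_ne h⟩ : NN E l r)) ↔ lw E l r x = j := by
  rcases x with n | x
  · exact ⟨fun ⟨a, e⟩ => Sum.inl.inj e ▸ a.2, fun e => ⟨⟨n.1, e⟩, rfl⟩⟩
  · simp [lw, h.symm]
theorem rng_r (x : NN E l r) : x ∈ Set.range Sum.inr ↔ lw E l r x = l := by
  rcases x with n | x
  · simpa [lw] using n.2
  · simp [lw]
theorem rng_v (j : ℕ) (n : E.N) :
    n ∈ Set.range (Subtype.val : {n // E.lv n = j} → E.N) ↔ E.lv n = j := by simp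

end Nv
open Nv

theorem nev (hL : NLA) : NEV := by
  intro s T0 E l ν m k b I g o hs w hk hb kb h0 hI hg vI vg id m0 m1 hm
  have vi := Subtype.val_injective (p := fun n => E.lv n = l)
  have n0 : (ν : ℝ) ≠ 0 := by positivity
  have n1 : (1 : ℝ) ≤ ν := by exact_mod_cast h0
  have kb' : (k ∘ Subtype.val : {n // E.lv n = l} → ℤ) ⬝ᵥ (b ∘ Subtype.val) = 1 :=
    (sum_st (f := fun n => k n * b n) fun n a => by
      rw [of_not_not fun z => a (hk n z), zero_mul]).symm.trans kb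
  obtain ⟨x0, -⟩ : ∃ x : {n // E.lv n = l}, True := by
    by_contra z
    have : IsEmpty {n // E.lv n = l} := ⟨fun x => z ⟨x, trivial⟩⟩
    simp [dotProduct] at kb'
  have l1' : 1 ≤ l := x0.2 ▸ (w.lv x0.1).1
  have ls : l ≤ s := x0.2 ▸ (w.lv x0.1).2
  have dA := fun j => blk_sub_det w.A_blk w.det Subtype.val_injective (rng_v (E := E) j)
  obtain ⟨r, B, O, c1, c2, c3, c4, c5, c6, c7, c8⟩ := hL _ _ _ _ (dA l) kb'
  have zk : ∀ n, E.lv n ≠ l → zc k n = 0 := fun n a => by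
    simp [zc, of_not_not fun z => a (hk n z)]
  have q1 : qf (E.A⁻¹ * E.A⁻¹ᵀ) (zc k) = qf ((E.A.submatrix Subtype.val Subtype.val)⁻¹ *
      (E.A.submatrix Subtype.val Subtype.val)⁻¹ᵀ) (zc (k ∘ Subtype.val : {n // E.lv n = l} → ℤ)) := by
    rw [qf_lev' vi (rng_v l) zk, blk_sub_D w.A_blk w.det vi (rng_v l)]; rfl
  rw [q1] at hm ⊢
  obtain ⟨a, ha⟩ : ∃ a : {n // E.lv n = l} → ℝ, a = zc (k ∘ Subtype.val : {n // E.lv n = l} → ℤ) ᵥ*
    (E.A.submatrix Subtype.val Subtype.val)⁻¹ := ⟨_, rfl⟩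
  have a1 : ∑ n, (zc k ᵥ* E.A⁻¹) n • E.Φ n = ∑ n, a n • E.Φ n.1 := by
    rw [vecMul_lev vi (rng_v l) zk, sum_st (p := fun n => E.lv n = l) fun n z => ?_, ha,
      blk_sub_inv w.A_blk w.det vi (rng_v l)]
    · rfl
    · exact smul_eq_zero_of_left (sum_eq_zero fun x _ => mul_eq_zero_of_right _
        (blk_inv w.A_blk _ _ fun e => z (e.symm.trans x.2))) _
  rw [← ha] at c6 c7
  generalize qf _ (zc (k ∘ Subtype.val : {n // E.lv n = l} → ℤ)) = Q at *
  have mm : ∀ {j}, j ≤ s → (ν : ℝ) ^ j * m ≤ ν ^ s * m := fun h =>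
    mul_le_mul_of_nonneg_right (pow_le_pow_right₀ n1 h) m0.le
  have m2 : m ≤ 1 := by simpa using (mm (Nat.zero_le s)).trans m1
  let g' := aeval (fun v => ((ν : ℝ) ^ E.lev v * m) • xv E l r ℝ v) g
  have key : ∑ n, a n • aeval (ff ν B b I) (E.Φ n.1) = -aeval (pa ν B b I O m) g' := by
    have e := congrArg (aeval (ff ν B b I)) id
    have e1 : ∑ n, (k n : ℝ) • ff ν B b I (.inr n) =
        (ν : ℝ) ^ (l - 1) • aeval (xv E l r ℝ) (map (Int.castRingHom ℝ) I) := by
      rw [sum_st (p := fun n => E.lv n = l) fun n z => by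
        rw [of_not_not fun y => z (hk n y), Int.cast_zero, zero_smul]]
      have k1 : ∀ j, ∑ n : {n // E.lv n = l}, (k n : ℝ) * B n j = 0 := fun j => by
        exact_mod_cast congrFun c2 j
      have k2 : ∑ n : {n // E.lv n = l}, (k n : ℝ) * b n = 1 := by exact_mod_cast kb'
      simp only [ff_eq, smul_add, sum_add_distrib, smul_sum, smul_smul (k _ : ℝ)]
      rw [sum_comm, ← sum_smul, k2, one_smul]
      simp only [← sum_smul, k1, zero_smul, sum_const_zero, zero_add]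
    have e2 : aeval (ff ν B b I) (map (Int.castRingHom ℝ) I) =
        (ν : ℝ) ^ l • aeval (xv E l r ℝ) (map (Int.castRingHom ℝ) I) := by
      rw [← ae_sc (hmap hI)]
      exact ae_cg fun v z => ff_low fun n y => vI n (vars_map _ _ (y ▸ z))
    have e3 : aeval (ff ν B b I) (aeval E.Φa g) = aeval (pa ν B b I O m) g' := by
      rw [comp_aeval_apply, comp_aeval_apply]
      exact ae_cg fun v z => sg_low o h0 m0 fun n y => vg n (y ▸ z)
    rw [a1] at e
    simp only [map_sub, map_add, map_sum, map_smul, aeval_X, e1, e2, e3, smul_smul] at e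
    rw [show (ν : ℝ)⁻¹ * ν ^ l = ν ^ (l - 1) by
      rw [← Nat.sub_add_cancel l1', pow_succ, Nat.add_sub_cancel]; field_simp] at e
    linear_combination -e
  have lg : l1 g' ≤ √Q := (l1_ae m1 (fun v => by
    rw [l1_sm, abs_of_pos (by positivity)]
    refine (mul_le_of_le_one_right (by positivity) ?_).trans (mm ?_)
    · rcases v with c | n
      · exact (l1_x _).le
      · simp only [xv, Sum.elim_inr]
        split_ifs
        exacts [by simp [l1], (l1_x _).le]
    · rcases v with c | n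
      exacts [hs c, (w.lv n).2]) (cc_hom hg (by omega))).trans hm
  have bl : Rw.Blk (lw E l r) (AA ν B b I O m) := Nw.A_blk' (E := EE ν B b I O m) (ee_hom w hI)
  have dd : (AA ν B b I O m).det ≠ 0 := blk_det_ne bl fun j => by
    by_cases z : j = l
    · subst z
      rw [← det_submatrix_equiv_self ((Equiv.ofInjective _ Sum.inr_injective).trans
        (Equiv.subtypeEquivRight rng_r))]
      exact ne_of_eq_of_ne (congrArg det (A_rr o w hI vI)) c3
    · rw [← det_submatrix_equiv_self ((Equiv.ofInjective _ (inj_l z)).trans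
        (Equiv.subtypeEquivRight (rng_l z)))]
      refine ne_of_eq_of_ne (congrArg det (A_lv (O := O) o w hI vI h0 z)) ?_
      rw [det_smul]
      exact mul_ne_zero (pow_ne_zero _ (by split_ifs <;> positivity)) (dA j)
  have W : (EE ν B b I O m).Wf s := ⟨mul_pos m0 w.pos, mul_le_one₀ m2 w.pos.le w.le,
    by rintro (n | j); exacts [w.lv n.1, ⟨l1', ls⟩], ee_hom w hI, dd⟩
  have ct : ∀ {j} (z : j ≠ l), (EE ν B b I O m).ct j = th (((if j < l then m⁻¹ else 1) •
      E.A.submatrix Subtype.val Subtype.val : Matrix {n // E.lv n = j} {n // E.lv n = j} ℝ)⁻¹ *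
      ((if j < l then m⁻¹ else 1) • E.A.submatrix Subtype.val Subtype.val :
        Matrix {n // E.lv n = j} {n // E.lv n = j} ℝ)⁻¹ᵀ) 0 := fun z => by
    rw [W.ct_eq (inj_l z) (rng_l z), ← A_lv o w hI vI h0 z]; rfl
  have cN : Fintype.card {n // E.lv n ≠ l} + Fintype.card {n // E.lv n = l} = Fintype.card E.N := by
    rw [Fintype.card_subtype_compl, Nat.sub_add_cancel (Fintype.card_subtype_le _)]
  have c9 : (r + 1 : ℝ) ≤ Fintype.card E.N := by exact_mod_cast (show r + 1 ≤ _ by omega)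
  have Q0 := Real.sqrt_pos.2 c5
  have hg' : g'.IsWeightedHomogeneous (Sum.elim T0.lev (lw E l r)) l :=
    Rf.hom_aeval (fun v => hsm (xv_hom ℝ v) _) hg
  clear_value g'
  obtain ⟨G, hG⟩ : ∃ G : E.N → MvPolynomial (T0.C ⊕ NN E l r) ℝ, ∀ n, G n = if h : E.lv n = l then
      ∑ j, O j ⟨n, h⟩ • X (.inr (.inr j)) - (a ⟨n, h⟩ / Q) • g'
    else (if E.lv n < l then (ν : ℝ) ^ E.lv n * m else 1) • X (.inr (.inl ⟨n, h⟩)) := ⟨_, fun _ => rfl⟩
  refine ⟨EE ν B b I O m, ro ν B b I, G, W,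
    ⟨h0, ?_, ro_hom hI, fun n => ?_, fun n => ?_, fun n => ?_, fun j => ?_⟩, rfl, ?_,
    fun j z => ?_, ?_, fun j z => ?_⟩
  · exact (mul_assoc _ _ _).symm.trans_le (mul_le_of_le_one_left w.pos.le m1)
  · change (G n).IsWeightedHomogeneous (Sum.elim T0.lev (lw E l r)) (E.lv n)
    by_cases h : E.lv n = l
    · rw [hG, dif_pos h]
      refine (IsWeightedHomogeneous.sum _ _ _ fun j _ => hsm ?_ _).sub (hsm ?_ _) <;> rw [h]
      exacts [isWeightedHomogeneous_X ℝ _ _, hg']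
    · rw [hG, dif_neg h]; exact hsm (isWeightedHomogeneous_X ℝ _ _) _
  · change aeval (ff ν B b I) (E.Φ n) = aeval (pa ν B b I O m) (G n)
    rw [hG]
    by_cases h : E.lv n = l
    · have e := fun x => congrFun (congrFun c7 ⟨n, h⟩) x
      simp only [Matrix.add_apply, mul_apply, transpose_apply, Matrix.smul_apply, vecMulVec_apply,
        smul_eq_mul, one_apply] at e
      rw [dif_pos h, map_sub, map_smul, sub_eq_add_neg, ← smul_neg, ← key]
      simp only [map_sum, map_smul, aeval_X, pa, ph, Sum.elim_inr, smul_sum, smul_smul]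
      rw [sum_comm, ← sum_add_distrib]
      simp only [← sum_smul, ← add_smul, div_eq_inv_mul, mul_assoc, e]
      simp
    · rw [dif_neg h]
      simp only [map_smul, aeval_X, pa, ph, Sum.elim_inr, Sum.elim_inl, smul_smul]
      split_ifs
      · rw [mul_inv_cancel₀ (by positivity), one_smul]
      · simp
  · have r0 : (0 : ℝ) ≤ r := by positivity
    change l1 (G n) ≤ _
    rw [hG]
    split_ifs with h z
    · rw [sub_eq_add_neg, ← neg_smul]
      refine (l1_ad _ _).trans ((add_le_add ((l1_su _ _).trans ((sum_le_card_nsmul _ _ 1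
        fun j _ => by rw [l1_sm, l1_x, mul_one]; exact c4 _ _).trans_eq (by simp))) ?_).trans c9)
      have : |a ⟨n, h⟩| ≤ √Q := Real.abs_le_sqrt
        (c6 ▸ single_le_sum (f := fun n => a n ^ 2) (fun _ _ => sq_nonneg _) (mem_univ _))
      rw [l1_sm, abs_neg, abs_div, abs_of_pos c5, div_mul_eq_mul_div, div_le_one c5]
      exact (mul_le_mul this lg (l1_nn _) Q0.le).trans_eq (Real.mul_self_sqrt c5.le)
    · rw [l1_sm, l1_x, mul_one, abs_of_pos (by positivity)]
      linarith [mm (w.lv n).2]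
    · rw [l1_sm, l1_x, mul_one, abs_one]; linarith
  · rw [Nw.R_eq (E := E) Subtype.val_injective (rng_v j)]
    by_cases z : j = l
    · subst z
      rw [Nw.R_eq (E := EE ν B b I O m) Sum.inr_injective rng_r, Fintype.card_fin]; omega
    · rw [Nw.R_eq (E := EE ν B b I O m) (inj_l z) (rng_l z)]
  · change Fintype.card (NN E l r) + 1 = _
    rw [Fintype.card_sum, Fintype.card_fin]; omega
  · rw [ct z.ne, if_pos z, w.ct_eq Subtype.val_injective (rng_v j),
      Nw.R_eq Subtype.val_injective (rng_v j)]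
    exact th_inv_smul (dA j) m0 m2
  · rw [W.ct_eq Sum.inr_injective rng_r, w.ct_eq vi (rng_v l)]
    exact (congrArg (fun Y => th (Y⁻¹ * Y⁻¹ᵀ) 0) (A_rr o w hI vI)).trans_le c8
  · rw [ct z.ne', if_neg z.not_gt, one_smul, w.ct_eq Subtype.val_injective (rng_v j)]

end Crest.Agent.N49.Tw
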