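import Crest.Agent.N49.Rn.Defs
import Crest.Agent.N49.La.Cost

/-!
# Row 49 (helper8): the linear algebra of a slice
-/

set_option autoImplicit false

open Matrix Finset

noncomputable section

namespace Crest.Agent.N49.Tw

open Po

theorem nla : NLA := by
  intro d _ _ A k b hA hk
  obtain ⟨r, B, P, h⟩ := La.spl_one k b hk
  have hAu : IsUnit A.det := hA.isUnit
  have hM : (Aᵀ * A).PosDef := by
    have := Po.posDef_conj (PosDef.one (n := d) (R := ℝ)) (B := A)
      (mulVec_injective_iff_isUnit.2 ((isUnit_iff_isUnit_det A).2 hAu))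
    rwa [Matrix.mul_one] at this
  have hMi : (Aᵀ * A)⁻¹ = A⁻¹ * A⁻¹ᵀ := by rw [Matrix.mul_inv_rev, transpose_nonsing_inv]
  obtain ⟨L, hL, hN⟩ := exists_sqrt (Po.posDef_conj hM h.rm.inj)
  have hLu : IsUnit L.det := hL.isUnit
  have hLt : IsUnit Lᵀ.det := by rwa [det_transpose]
  have hkB : k ᵥ* B = 0 := by
    funext j
    exact congrFun (congrFun h.kb ()) j
  have hkB' : zc k ᵥ* rl B = 0 := by
    funext j
    have := congrArg (Int.cast : ℤ → ℝ) (congrFun hkB j)
    simpa [vecMul, dotProduct, zc, rl] using this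
  have hN' : (rl B)ᵀ * (Aᵀ * A) * rl B = Lᵀ * L := hN
  obtain ⟨O, hO⟩ : ∃ O : Matrix (Fin r) d ℝ, O = (A * rl B * L⁻¹)ᵀ := ⟨_, rfl⟩
  have e1 : O * A * rl B = L := by
    rw [hO, transpose_mul, transpose_mul, transpose_nonsing_inv]
    calc Lᵀ⁻¹ * ((rl B)ᵀ * Aᵀ) * A * rl B = Lᵀ⁻¹ * ((rl B)ᵀ * (Aᵀ * A) * rl B) := by
          simp only [Matrix.mul_assoc]
      _ = L := by rw [hN', ← Matrix.mul_assoc, nonsing_inv_mul _ hLt, Matrix.one_mul]
  have e2 : O * Oᵀ = 1 := by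
    calc O * Oᵀ = O * A * rl B * L⁻¹ := by
          conv_lhs => rw [hO, transpose_transpose, ← hO]
          simp only [Matrix.mul_assoc]
      _ = 1 := by rw [e1, mul_nonsing_inv _ hLu]
  obtain ⟨a, ha⟩ : ∃ a, a = zc k ᵥ* A⁻¹ := ⟨_, rfl⟩
  have e3 : qf (A⁻¹ * A⁻¹ᵀ) (zc k) = a ⬝ᵥ a := by
    rw [qf, ← mulVec_mulVec, dotProduct_mulVec, mulVec_transpose, ← ha]
  have e4 : a ᵥ* A = zc k := by rw [ha, vecMul_vecMul, nonsing_inv_mul _ hAu, vecMul_one]
  have e5 : a ᵥ* Oᵀ = 0 := by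
    rw [hO, transpose_transpose, ← vecMul_vecMul, ← vecMul_vecMul, e4, hkB', zero_vecMul]
  have e6 : O *ᵥ a = 0 := by rw [← vecMul_transpose, e5]
  have ha0 : a ≠ 0 := fun h0 => by
    rw [h0, zero_vecMul] at e4
    have : k = 0 := funext fun i => Int.cast_eq_zero.1 (congrFun e4 i).symm
    rw [this, zero_dotProduct] at hk
    exact zero_ne_one hk
  have hp : 0 < a ⬝ᵥ a := lt_of_le_of_ne (sum_nonneg fun i _ => mul_self_nonneg _)
    (fun h0 => ha0 (dotProduct_self_eq_zero.1 h0.symm))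
  have hc := h.card_eq
  refine ⟨r, B, O, by simpa using hc, hkB, by rwa [e1], fun j n => ?_, by rwa [e3], ?_, ?_, ?_⟩
  · have h1 : ∑ m, O j m * O j m = 1 := by
      have := congrFun (congrFun e2 j) j
      rwa [one_apply_eq, mul_apply] at this
    refine abs_le_one_iff_mul_self_le_one.2 (h1 ▸ ?_)
    exact single_le_sum (f := fun m => O j m * O j m) (fun i _ => mul_self_nonneg _) (mem_univ n)
  · rw [e3, ← ha, dotProduct]
    exact sum_congr rfl fun i _ => (sq _).symm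
  · rw [e3, ← ha]
    obtain ⟨f⟩ := Fintype.card_eq.1 hc
    have x1 : fromRows O (replicateRow Unit a) *
        fromCols Oᵀ (replicateCol Unit ((a ⬝ᵥ a)⁻¹ • a)) = 1 := by
      rw [fromRows_mul_fromCols, e2, ← fromBlocks_one]
      congr 1
      · ext i j
        change (O *ᵥ ((a ⬝ᵥ a)⁻¹ • a)) i = 0
        rw [mulVec_smul, e6, smul_zero]; rfl
      · ext i j
        change (a ᵥ* Oᵀ) j = 0
        rw [e5]; rfl
      · ext i j
        change a ⬝ᵥ ((a ⬝ᵥ a)⁻¹ • a) = _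
        rw [dotProduct_smul, smul_eq_mul, inv_mul_cancel₀ hp.ne', Subsingleton.elim i j,
          one_apply_eq]
    have x2 := (mul_eq_one_comm_of_equiv f).1 x1
    rw [fromCols_mul_fromRows] at x2
    rw [← x2]
    congr 1
    ext i j
    simp [mul_apply, vecMulVec_apply, mul_assoc]
  · have := h.ct_one hM
    rw [hN, La.ct, La.ct, hMi, Matrix.mul_inv_rev, ← transpose_nonsing_inv] at this
    rwa [e1]

end Crest.Agent.N49.Tw

end
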