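import Crest.Agent.N49.Rn.Nhj
import Crest.Agent.N49.Rn.Nstg
import Crest.Agent.N49.Rn.L1

/-! # Row 49 (helper21): the data of an event -/

set_option autoImplicit false

open Matrix MvPolynomial Finset

noncomputable section

namespace Crest.Agent.N49.Tw

open Po TS

theorem inv_blk2 {a b : Type} [Fintype a] [Fintype b] [DecidableEq a] [DecidableEq b]
    {A : Matrix a a ℝ} {B : Matrix b b ℝ} {μ : ℝ} {X : Matrix (a ⊕ b) (a ⊕ b) ℝ}
    (h : X = fromBlocks (μ⁻¹ • A) 0 0 B) (h0 : 0 < μ) (hA : A.det ≠ 0) (hB : B.det ≠ 0) :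
    X⁻¹ = fromBlocks (μ • A⁻¹) 0 0 B⁻¹ := by
  refine inv_eq_right_inv ?_
  rw [h, fromBlocks_multiply]
  simp [smul_smul, h0.ne', mul_nonsing_inv _ hA.isUnit, mul_nonsing_inv _ hB.isUnit]

theorem thp_blk {a b : Type} [Fintype a] [Fintype b] {A : Matrix a a ℝ} {B : Matrix b b ℝ}
    {Y : Matrix (a ⊕ b) (a ⊕ b) ℝ} (hY : Y = fromBlocks A 0 0 B)
    {k : a ⊕ b → ℤ} (hk : ∀ c, k (.inl c) = 0) (Φ : a ⊕ b → MvPolynomial (a ⊕ b) ℝ) :
    ∑ c, MvPolynomial.C (k c : ℝ) * (X c - ∑ c', MvPolynomial.C (Y c c') * Φ c') =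
      ∑ n, (k (.inr n) : ℝ) • X (.inr n) - ∑ n, (zc (fun n => k (.inr n)) ᵥ* B) n • Φ (.inr n) := by
  simp only [hY, Fintype.sum_sum_type, hk, Int.cast_zero, C_0, zero_mul, sum_const_zero, zero_add,
    fromBlocks_apply₂₁, fromBlocks_apply₂₂, Matrix.zero_apply, mul_sub, sum_sub_distrib, mul_sum,
    smul_eq_C_mul, vecMul, dotProduct, zc, map_sum, map_mul, sum_mul, mul_assoc]
  rw [sum_comm]

theorem qf_blk2 {a b : Type} [Fintype a] [Fintype b] {A : Matrix a a ℝ} {B : Matrix b b ℝ}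
    {k : a ⊕ b → ℤ} (hk : ∀ c, k (.inl c) = 0) :
    qf (fromBlocks A 0 0 B) (zc k) = qf B (zc fun n => k (.inr n)) := by
  simp [qf, dotProduct, mulVec, zc, hk]

theorem div_id {a : Type} {P J g : MvPolynomial a ℝ} {Φ : a → MvPolynomial a ℝ} {d q : ℕ}
    (d0 : (0 : ℝ) < d) (h : (q : ℝ)⁻¹ • J + aeval Φ g = ((d : ℤ) : ℝ) • P) :
    P = ((d * q : ℕ) : ℝ)⁻¹ • J + aeval Φ ((d : ℝ)⁻¹ • g) := by
  rw [map_smul, Nat.cast_mul, mul_inv, mul_smul, ← smul_add, h, smul_smul, Int.cast_natCast,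
    inv_mul_cancel₀ d0.ne', one_smul]

theorem vars_sm {a : Type} {g : MvPolynomial a ℝ} {x : ℝ} {c : a} (h : c ∈ (x • g).vars) :
    c ∈ g.vars := by
  classical
  rw [smul_eq_C_mul] at h
  simpa using vars_mul _ _ h

theorem npr0 : NPR := fun s M0 T0 st0 E l q r k o w hl hq r0 k0 hk hJ => by
  obtain ⟨o', -, hA, -, hc, -⟩ := nstg s M0 T0 st0 E o w
  have hs : 1 ≤ s := by
    obtain ⟨F, hF⟩ := Function.ne_iff.1 k0
    exact hl.trans ((hk F hF).2 ▸ o'.lev F)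
  obtain ⟨d, k1, b, d1, e, kb, h1, h2, p1, p2, p3⟩ := o'.stg.tri.prim (l := M0 * (s + 1) ^ l)
    (k := k) (fun c z => (stg_lev c).trans (hk c z).1) k0
  have a1 : ∀ c : T0.C, (E.T.stg (E.st st0 M0 s)).lev (.inl c) ≠ M0 * (s + 1) ^ l := fun c =>
    (((stg_lev _).trans_le (o.stg.le c).1).trans_lt (Ns.lt_new o hl hs)).ne
  have a2 : ∀ n : E.N, (E.T.stg (E.st st0 M0 s)).lev (.inr n) = M0 * (s + 1) ^ l → E.lv n = l :=
    fun n z => Ns.new_inj o hs ((stg_lev (T := E.T) (st := E.st st0 M0 s) (.inr n)).symm.trans z)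
  have a3 : ∀ n : E.N, E.st st0 M0 s (.inr n) < M0 * (s + 1) ^ l → E.lv n < l := fun n z =>
    lt_of_not_ge fun y => z.not_ge (Nat.mul_le_mul_left _ (Nat.pow_le_pow_right (by omega) y))
  have z1 : ∀ c : T0.C, k1 (.inl c) = 0 := fun c => of_not_not fun z => a1 c (h1 _ z)
  obtain ⟨I, g, hI, hg, vI, vg, lg, eq⟩ := nhj s _ E.T _ _ l q r k o' r0 hk hJ
  have qq : qf (E.T.stg (E.st st0 M0 s)).D (zc k1) =
      qf (E.A⁻¹ * E.A⁻¹ᵀ) (zc fun n => k1 (.inr n)) := by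
    rw [Ns.stD o w]; exact qf_blk2 z1
  rw [(hc l hl).2] at p1 p3
  rw [qq] at p1 p2
  rw [Ns.lev_T] at hI hg
  have d0 : (0 : ℝ) < d := by exact_mod_cast d1
  refine ⟨d, fun n => k1 (.inr n), fun n => b (.inr n), I, (d : ℝ)⁻¹ • g, d1, p3, p1, p2,
    fun n z => a2 n (h1 _ z), fun n z => a2 n (h2 _ z), ?_, hI, ?_, fun n z => a3 n (vI _ z),
    fun n z => a3 n (vg _ (vars_sm z)), ?_, ?_⟩
  · rw [← kb]
    exact Eq.symm ((Fintype.sum_sum_type _).trans (by simp [z1, dotProduct]))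
  · rw [smul_eq_C_mul]; exact hg.C_mul _
  · exact div_id d0 (eq.symm.trans ((congrArg _ e).trans
      (((E.T.stg (E.st st0 M0 s)).thp_smul d k1).trans (congrArg (_ • ·)
        (thp_blk (inv_blk2 hA w.pos o.stg.tri.det w.det) z1 E.Φa)))))
  · refine (l1_smul _ g).trans_le (le_trans ?_ lg)
    rw [abs_of_pos (inv_pos.2 d0)]
    exact mul_le_of_le_one_left (l1_nonneg _) (inv_le_one_of_one_le₀ (by exact_mod_cast d1))

theorem npr (_ : NSTG) (_ : NHJ) : NPR := npr0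

end Crest.Agent.N49.Tw

end
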