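import Crest.Agent.N49.Rn.Sems
import Crest.Agent.N49.Rn.Npr
import Crest.Agent.N49.Rn.Nev
import Crest.Agent.N49.Rn.Nla
import Crest.Agent.N49.Rn.Nold
import Crest.Agent.N49.Rn.Cmp
import Crest.Agent.N49.Rn.Nun
import Crest.Agent.N49.Rn.Brel

/-!
# Row 49 (helper38): REG-NEW from the character estimate and `B` for towers
-/

set_option autoImplicit false

namespace Crest.Agent.N49.Tw.Rn

/-- **REG-NEW** -/
theorem regnew (hc : ∀ M, ∃ c, CHAR M c) (hj : ∀ M, Sy.JBS M) (s M0 : ℕ) :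
    ∃ C0, ∀ C, C0 ≤ C → REGNEW s M0 C :=
  let ⟨C0, h⟩ := sems (hc (M0 * (s + 1) ^ s))
  ⟨C0, fun C e => regnew_of nstg (nold nstg) npr0 (nev nla) ncmp (h C e) (brel (hj _))⟩

end Crest.Agent.N49.Tw.Rn
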