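import Crest.Agent.N49.Rn.Defs
import Crest.Agent.N49.Tw.Mast0

/-!
# Row 49 (helper38): regularity of the tower with new families from its parts
-/

set_option autoImplicit false

open Matrix MvPolynomial Finset

noncomputable section

namespace Crest.Agent.N49.Tw.Rn

open Po TS

variable {s M0 : ℕ} {T0 : TS Unit} {st0 : T0.C → ℕ} {E : Nw T0}

theorem asm (h1 : NSTG) (h2 : NOLD) (ho : Old T0 st0 M0 s) (hw : E.Wf s) {t1 : ℕ} (ht : M0 ≤ t1)
    {P0 a0 l0 P a l : ℝ} {κ0 : ℕ → ℕ → ℝ} {lb0 κ R τ L : ℕ → ℝ}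
    (h0 : T0.RgP st0 M0 P0 a0 l0 κ0 lb0) (p1 : 1 ≤ P) (p2 : P ≤ P0) (z0 : 0 ≤ l0)
    (a1 : a0 ≤ E.μ ^ 2 * a) (a2 : a0 ≤ E.μ ^ 2)
    (k1 : ∀ t, M0 < t → t ≤ t1 → 0 < κ t ∧ κ t ≤ 1 ∧ P * κ t ≤ a ∧ a0 ≤ E.μ ^ 2 * κ t)
    (k2 : ∀ t t', M0 < t' → t' < t → t ≤ t1 → P * κ t' ≤ κ t)
    (k3 : ∀ t, M0 < t → t ≤ t1 → E.T.SymS (E.st st0 M0 s) t (fun _ => κ t) (R t) (τ t) ∧
      P * (1 + l + ∑ j ∈ Icc t t1, E.T.cst (E.st st0 M0 s) κ j) ≤ L t ∧ L t / κ t ≤ R t ∧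
      τ t ≤ Real.exp (-L t))
    (k4 : l + ∑ j ∈ Icc (M0 + 1) t1, E.T.cst (E.st st0 M0 s) κ j ≤ l0) :
    ∃ κ' lb', E.T.RgP (E.st st0 M0 s) t1 P a l κ' lb' := by
  have m0 := hw.pos
  have m2 : 0 < E.μ ^ 2 := by positivity
  have o1 : ∀ t ≤ M0, ∀ j, 0 < κ0 t j ∧ P * κ0 t j ≤ a0 ∧ κ0 t j ≤ a0 := fun t k j => by
    obtain ⟨x, -, y⟩ := h0.lo t k
    have := x.trans_le (y j).1
    have := (y j).2
    refine ⟨‹_›, ?_, ?_⟩ <;> nlinarith
  refine ⟨fun t j => if t ≤ M0 then κ0 t j / E.μ ^ 2 else κ t,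
    fun t => if t ≤ M0 then lb0 t / E.μ ^ 2 else κ t, fun t k => ?_, fun t k t' k' j j' => ?_,
    fun t k => ?_⟩
  · split_ifs with e
    · obtain ⟨x, -, y⟩ := h0.lo t e
      refine ⟨div_pos x m2, (div_le_one m2).2 (((y 0).1.trans (o1 t e 0).2.2).trans a2), fun j =>
        ⟨div_le_div_of_nonneg_right (y j).1 m2.le, ?_⟩⟩
      rw [← mul_div_assoc, div_le_iff₀ m2, mul_comm a]
      exact (o1 t e j).2.1.trans a1
    · obtain ⟨x, y, z, -⟩ := k1 t (not_le.1 e) k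
      exact ⟨x, y, fun _ => ⟨le_rfl, z⟩⟩
  · split_ifs with e' e e
    · rw [← mul_div_assoc]
      exact div_le_div_of_nonneg_right ((mul_le_mul_of_nonneg_right p2 (o1 t' e' j').1.le).trans
        (h0.sep t e t' k' j j')) m2.le
    · rw [← mul_div_assoc, div_le_iff₀ m2, mul_comm (κ t)]
      exact (o1 t' e' j').2.1.trans (k1 t (not_le.1 e) k).2.2.2
    · omega
    · exact k2 t t' (not_le.1 e') k' k
  · obtain ⟨u, v⟩ := mem_Icc.1 k
    have c1 : ∀ t', M0 < t' → ∑ j ∈ Icc t' t1, E.T.cst (E.st st0 M0 s)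
        (fun t => if t ≤ M0 then lb0 t / E.μ ^ 2 else κ t) j =
        ∑ j ∈ Icc t' t1, E.T.cst (E.st st0 M0 s) κ j := fun t' q => sum_congr rfl fun j w => by
      have : ¬ j ≤ M0 := by have := (mem_Icc.1 w).1; omega
      simp only [cst, if_neg this]
    by_cases e : t ≤ M0
    · simp only [if_pos e]
      have c2 : ∑ j ∈ Icc t M0, E.T.cst (E.st st0 M0 s)
          (fun t => if t ≤ M0 then lb0 t / E.μ ^ 2 else κ t) j ≤ ∑ j ∈ Icc t M0, T0.cst st0 lb0 j :=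
        sum_le_sum fun j w => by
          have q := (mem_Icc.1 w).2
          obtain ⟨n, -, -, x, -⟩ := h1 s M0 T0 st0 E ho hw
          obtain ⟨x1, x2⟩ := x j q
          have y1 := Real.log_le_log (zero_lt_one.trans_le (one_le_ct n.stg.tri j)) x2
          have y0 := (h0.lo j q).1
          rw [Real.log_mul (by positivity) (zero_lt_one.trans_le (one_le_ct ho.stg.tri j)).ne',
            Real.log_pow] at y1
          have y2 : Real.log (lb0 j / E.μ ^ 2)⁻¹ = Real.log (lb0 j)⁻¹ - 2 * Real.log E.μ⁻¹ := by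
            rw [Real.log_inv, Real.log_inv, Real.log_inv, Real.log_div y0.ne' m2.ne', Real.log_pow]
            push_cast; ring
          have y3 := mul_nonneg (Nat.cast_nonneg (α := ℝ) ((T0.stg st0).R j))
            (log_inv_nonneg m0 hw.le)
          simp only [cst, if_pos q, x1, y2]
          linarith
      have c3 : Icc t t1 = Icc t M0 ∪ Icc (M0 + 1) t1 := by
        ext j; simp only [mem_union, mem_Icc]; omega
      have c4 : P * (1 + l + ∑ j ∈ Icc t t1, E.T.cst (E.st st0 M0 s)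
          (fun t => if t ≤ M0 then lb0 t / E.μ ^ 2 else κ t) j) ≤
          P0 * (1 + l0 + ∑ j ∈ Icc t M0, T0.cst st0 lb0 j) := by
        have := h0.sum_nonneg ho.stg.tri t le_rfl
        rw [c3, sum_union (disjoint_left.2 fun j x y => by
          have := (mem_Icc.1 x).2; have := (mem_Icc.1 y).1; omega), c1 _ (Nat.lt_succ_self _)]
        exact (mul_le_mul_of_nonneg_left (by linarith) (by linarith)).trans
          (mul_le_mul_of_nonneg_right p2 (by linarith))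
      refine (h2 s M0 T0 st0 E t _ _ _ ho hw e (fun j => (o1 t e j).1)
        (h0.sym t (mem_Icc.2 ⟨u, e⟩))).mono ?_ (Real.exp_le_exp.2 (neg_le_neg c4))
      rw [div_div_eq_mul_div, mul_comm _ (E.μ ^ 2), mul_div_assoc]
      exact mul_le_mul_of_nonneg_left (div_le_div_of_nonneg_right c4 (h0.lo t e).1.le) m2.le
    · simp only [if_neg e]
      obtain ⟨x, y, z, w⟩ := k3 t (not_le.1 e) v
      rw [c1 t (not_le.1 e)]
      exact x.mono ((div_le_div_of_nonneg_right y (k1 t (not_le.1 e) v).1.le).trans z)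
        (w.trans (Real.exp_le_exp.2 (neg_le_neg y)))

theorem two_le {x y : ℕ} (h : x ≤ y) : (2 : ℝ) ^ x ≤ 2 ^ y := pow_le_pow_right₀ one_le_two h

theorem half_le {x y : ℕ} (h : x ≤ y) : (1 : ℝ) / 2 ^ y ≤ 1 / 2 ^ x :=
  one_div_le_one_div_of_le (by positivity) (two_le h)

theorem half_le_one (x : ℕ) : (1 : ℝ) / 2 ^ x ≤ 1 := by simpa using half_le (Nat.zero_le x)

theorem log_half (x : ℕ) : Real.log ((1 : ℝ) / 2 ^ x)⁻¹ = x * Real.log 2 := by
  rw [one_div, inv_inv, Real.log_pow]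

theorem log_half_le (x : ℕ) : Real.log ((1 : ℝ) / 2 ^ x)⁻¹ ≤ x := by
  rw [log_half]
  exact mul_le_of_le_one_right (Nat.cast_nonneg _) (by have := Real.log_two_lt_d9; linarith)

theorem half_le_exp {x y : ℕ} (h : 2 * x ≤ y) : (1 : ℝ) / 2 ^ y ≤ Real.exp (-x) := by
  rw [← Real.exp_log (show (0 : ℝ) < 1 / 2 ^ y by positivity), Real.exp_le_exp, ← neg_le_neg_iff,
    ← Real.log_inv, log_half, neg_neg]
  have a : (2 : ℝ) * x ≤ y := by exact_mod_cast h
  have := Real.log_two_gt_d9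
  have : (0 : ℝ) ≤ x := Nat.cast_nonneg _
  nlinarith

theorem succ_pow_le {n C x : ℕ} (h : n ≤ x) : ((n : ℝ) + 1) ^ C ≤ 2 ^ (C * x) := by
  rw [mul_comm, pow_mul]
  refine pow_le_pow_left₀ (by positivity) ?_ _
  exact_mod_cast Nat.lt_two_pow_self.trans_le (Nat.pow_le_pow_right two_pos h)

/-- the scales -/
structure Sc (s M0 C K b : ℕ) (β : ℕ → ℕ) : Prop where
  big : ∀ t, M0 * (s + 1) ^ s + 2 * C + s + 10 ≤ β t
  b : ∀ t, b ≤ β t
  anti : Antitone β
  step : ∀ t ≤ M0 * (s + 1) ^ s, 1 ≤ t → β t ^ K ≤ β (t - 1)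
  K : 2 ≤ K

/-- a good stage -/
def Gd (E : Nw T0) (st0 : T0.C → ℕ) (M0 s C : ℕ) (β : ℕ → ℕ) (t : ℕ) : Prop :=
  E.T.SymS (E.st st0 M0 s) t (fun _ => 1 / 2 ^ β t ^ 2) (2 ^ β t ^ 3) (1 / 2 ^ β t ^ (2 * C + 8))

theorem R_le (E : Nw T0) (l : ℕ) : E.R l ≤ Fintype.card E.N := card_le_univ _

theorem asm' (h1 : NSTG) (h2 : NOLD) (ho : Old T0 st0 M0 s) (hw : E.Wf s) {C K b n0 n t1 : ℕ}
    {β : ℕ → ℕ} (hβ : Sc s M0 C K b β) (ht : M0 ≤ t1) (ht' : t1 ≤ M0 * (s + 1) ^ s) (hn : n ≤ β t1)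
    (h0 : T0.RgS st0 M0 C n0 (1 / 2 ^ n0) (1 / 2 ^ n0)) (hn0 : β M0 ^ 8 ≤ n0)
    (hN : Fintype.card E.N ≤ b) (hμ : 1 / 2 ^ β M0 ^ 3 ≤ E.μ)
    (hc : ∀ l, E.ct l ≤ 2 ^ β (M0 * (s + 1) ^ l) ^ 5)
    (hg : ∀ t, M0 < t → t ≤ t1 → Gd E st0 M0 s C β t) :
    E.T.RgS (E.st st0 M0 s) t1 C n (1 / 2 ^ n) (1 / 2 ^ n) := by
  obtain ⟨κ0, lb0, h0⟩ := rgS_iff.1 h0
  obtain ⟨o, -, -, -, x1, x2⟩ := h1 s M0 T0 st0 E ho hw
  have pw : ∀ t {i j : ℕ}, i ≤ j → β t ^ i ≤ β t ^ j := fun t _ _ h =>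
    Nat.pow_le_pow_right (by have := hβ.big t; omega) h
  have pm : ∀ t {c : ℕ} (i j : ℕ), i + 1 = j → c ≤ β t → c * β t ^ i ≤ β t ^ j :=
    fun t _ i j e h => by rw [← e, pow_succ, mul_comm]; exact Nat.mul_le_mul_left _ h
  have nb : ∀ t ≤ t1, n ≤ β t := fun t k => hn.trans (hβ.anti k)
  have cs : ∀ t, M0 < t → ∀ j, t ≤ j →
      E.T.cst (E.st st0 M0 s) (fun t => 1 / 2 ^ β t ^ 2) j ≤ (β t ^ 6 : ℕ) := fun t q j k => by
    by_cases e : ∃ l, j = M0 * (s + 1) ^ l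
    · obtain ⟨l, rfl⟩ := e
      have l1 : 1 ≤ l := Nat.pos_of_ne_zero fun z => by simp [z] at k; omega
      set j := M0 * (s + 1) ^ l
      have y1 := Real.log_le_log (zero_lt_one.trans_le (one_le_ct o.stg.tri j))
        ((x1 l l1).2.trans_le (hc l))
      have y2 := log_half_le (β j ^ 5)
      rw [one_div, inv_inv] at y2
      have y3 := log_half_le (β j ^ 2)
      have y4 : ((E.T.stg (E.st st0 M0 s)).R j : ℝ) ≤ β j := by
        exact_mod_cast (x1 l l1).1.trans_le (((R_le E l).trans hN).trans (hβ.b j))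
      have y5 : β j ^ 5 + β j * (1 + β j ^ 2) ≤ β t ^ 6 := by
        have a := pw j (show 1 ≤ 5 by omega)
        have b := pw j (show 3 ≤ 5 by omega)
        have c := pm j (c := 3) 5 6 rfl (by have := hβ.big j; omega)
        have d := Nat.pow_le_pow_left (hβ.anti k) 6
        rw [mul_add, mul_one, ← pow_succ', show 2 + 1 = 3 from rfl]; rw [pow_one] at a; omega
      have y6 := mul_le_mul y4 (add_le_add_right y3 1) (add_nonneg zero_le_one
        (log_inv_nonneg (by positivity) (half_le_one _))) (Nat.cast_nonneg _)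
      have y7 : ((β j ^ 5 : ℕ) : ℝ) + β j * (1 + (β j ^ 2 : ℕ)) ≤ (β t ^ 6 : ℕ) := by
        exact_mod_cast y5
      simp only [cst]
      linarith
    · obtain ⟨y1, y2⟩ := x2 j (by omega) fun l z => e ⟨l, z⟩
      simp [cst, y1, y2]
  have sm : ∀ t ≤ t1, ∀ t', t < t' ∨ t = t' ∧ M0 < t → M0 ≤ t → 1 + Real.log (1 / 2 ^ n)⁻¹ +
      ∑ j ∈ Icc t' t1, E.T.cst (E.st st0 M0 s) (fun t => 1 / 2 ^ β t ^ 2) j ≤ (β t ^ 7 : ℕ) :=
    fun t k t' q q' => by
    have a := sum_le_card_nsmul (Icc t' t1) _ ((β t ^ 6 : ℕ) : ℝ) fun j w =>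
      (cs t' (by omega) j (mem_Icc.1 w).1).trans (by
        exact_mod_cast Nat.pow_le_pow_left (hβ.anti (show t ≤ t' by omega)) 6)
    have b := log_half_le n
    have c : 1 + n + #(Icc t' t1) * β t ^ 6 ≤ β t ^ 7 := by
      have a := pw t (show 1 ≤ 6 by omega)
      have b := pm t (c := #(Icc t' t1) + 2) 6 7 rfl (by
        have := hβ.big t; have := ho.one; rw [Nat.card_Icc]; omega)
      have := nb t k
      have := hβ.big t
      rw [pow_one] at a; rw [add_mul] at b; omega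
    have d : (1 : ℝ) + n + #(Icc t' t1) * (β t ^ 6 : ℕ) ≤ (β t ^ 7 : ℕ) := by exact_mod_cast c
    rw [nsmul_eq_mul] at a
    linarith
  have b8 : 2 * β M0 ^ 7 ≤ n0 := (pm M0 7 8 rfl (by have := hβ.big M0; omega)).trans hn0
  have mu : ∀ x ≤ β M0 ^ 2, (1 : ℝ) / 2 ^ n0 ≤ E.μ ^ 2 * (1 / 2 ^ x) := fun x k => by
    refine le_trans ?_ (mul_le_mul_of_nonneg_right (pow_le_pow_left₀ (by positivity) hμ 2)
      (by positivity))
    rw [div_pow, one_pow, ← pow_mul, div_mul_div_comm, one_mul, ← pow_add]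
    have a := pw M0 (show 2 ≤ 3 by omega)
    have b := pm M0 (c := 3) 3 4 rfl (by have := hβ.big M0; omega)
    have c := pw M0 (show 4 ≤ 7 by omega)
    exact half_le (by omega)
  have n2 : ∀ t ≤ t1, n ≤ β t ^ 2 := fun t k =>
    (nb t k).trans (Nat.le_self_pow two_ne_zero _)
  have pk : ∀ t ≤ t1, ∀ x y, C * β t + y ≤ x → ((n : ℝ) + 1) ^ C * (1 / 2 ^ x) ≤ 1 / 2 ^ y :=
    fun t k x y q => by
    refine (mul_le_mul_of_nonneg_right (succ_pow_le (nb t k)) (by positivity)).trans ?_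
    rw [mul_one_div, div_le_div_iff₀ (by positivity) (by positivity), one_mul, ← pow_add]
    exact two_le q
  refine rgS_iff.2 (asm (L := fun t => (β t ^ (2 * C + 7) : ℕ)) h1 h2 ho hw ht h0
    (one_le_pow₀ (by simp)) (pow_le_pow_left₀ (by positivity) (by
      have := (n2 M0 ht).trans ((pw M0 (show 2 ≤ 8 by omega)).trans hn0)
      exact_mod_cast Nat.succ_le_succ this) _)
    (log_inv_nonneg (by positivity) (half_le_one _)) (mu n (n2 M0 ht)) (by simpa using mu 0 (by simp))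
    (fun t q k => ⟨by positivity, half_le_one _, pk t k _ _ ?_,
      mu _ (Nat.pow_le_pow_left (hβ.anti q.le) 2)⟩)
    (fun t t' q q' k => pk t k _ _ ?_) (fun t q k => ⟨hg t q k, ?_, ?_, half_le_exp ?_⟩) ?_)
  · have a := pm t (c := C + 1) 1 2 rfl (by have := hβ.big t; omega)
    have := nb t k
    rw [pow_one, add_mul] at a; omega
  · have a := pm t (c := C) 1 2 rfl (by have := hβ.big t; omega)
    have b := pm t (c := 2) 2 3 rfl (by have := hβ.big t; omega)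
    have c := Nat.pow_le_pow_left (((pw t hβ.K).trans (hβ.step t (k.trans ht') (by omega))).trans
      (hβ.anti (show t' ≤ t - 1 by omega))) 2
    have d := pw t (show 3 ≤ 2 * 2 by omega)
    rw [← pow_mul] at c; rw [pow_one] at a; omega
  · have a : ((n : ℝ) + 1) ^ C ≤ (β t ^ (2 * C) : ℕ) := by
      have a := pm t (c := 2) 1 2 rfl (by have := hβ.big t; omega)
      have := nb t k
      have := hβ.big t
      rw [pow_mul]; rw [pow_one] at a
      exact_mod_cast Nat.pow_le_pow_left (show n + 1 ≤ β t ^ 2 by omega) C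
    rw [pow_add, Nat.cast_mul]
    exact (mul_le_mul_of_nonneg_left (sm t k t (Or.inr ⟨rfl, q⟩) q.le) (by positivity)).trans
      (mul_le_mul_of_nonneg_right a (by positivity))
  · have a : β t ^ (2 * C + 7) ≤ 2 ^ β t ^ 2 := by
      refine (Nat.pow_le_pow_left Nat.lt_two_pow_self.le _).trans ?_
      rw [← pow_mul, sq]
      exact Nat.pow_le_pow_right two_pos (Nat.mul_le_mul_left _ (by have := hβ.big t; omega))
    have b := pm t (c := 2) 2 3 rfl (by have := hβ.big t; omega)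
    rw [div_div_eq_mul_div, div_one]
    refine le_trans (mul_le_mul_of_nonneg_right (show _ ≤ (2 : ℝ) ^ β t ^ 2 by exact_mod_cast a)
      (by positivity)) ?_
    rw [← pow_add]
    exact two_le (by omega)
  · exact pm t _ _ rfl (by have := hβ.big t; omega)
  · have a := sm M0 ht (M0 + 1) (Or.inl (Nat.lt_succ_self _)) le_rfl
    have b : (2 : ℝ) * (β M0 ^ 7 : ℕ) ≤ n0 := by exact_mod_cast b8
    have := Real.log_two_gt_d9
    have : (0 : ℝ) ≤ n0 := Nat.cast_nonneg _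
    rw [log_half n0]
    nlinarith

end Crest.Agent.N49.Tw.Rn

end
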