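import Crest.Agent.N49.Rn.Asm

/-!
# Row 49 (helper38): the loop of REG-NEW
-/

set_option autoImplicit false

open Matrix MvPolynomial Finset

noncomputable section

namespace Crest.Agent.N49.Tw.Rn

open Po TS

variable {s M0 : ℕ} {T0 : TS Unit} {st0 : T0.C → ℕ} {E : Nw T0}

theorem hom_mono {E' : Nw T0} {ν : ℕ} {x x' : ℝ} {ρ G} (h : E.Hom s E' ν x ρ G) (e : x ≤ x') :
    E.Hom s E' ν x' ρ G := { h with l1 := fun n => (h.l1 n).trans e }

theorem hom_refl (E : Nw T0) (s : ℕ) :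
    E.Hom s E 1 1 (fun n => X (.inr n)) fun n => X (.inr n) where
  one := le_rfl
  mu := by simp
  hρ n := isWeightedHomogeneous_X ℤ E.lev (.inr n)
  hG n := isWeightedHomogeneous_X ℝ E.lev (.inr n)
  eq n := by
    have : (fun c => map (Int.castRingHom ℝ) (E.sb E 1 (fun n => X (.inr n)) c)) = X :=
      funext fun c => by cases c <;> simp [Nw.sb]
    rw [this, aeval_X_left_apply, aeval_X]; rfl
  l1 n := by simp [l1, support_X, coeff_X]
  R _ := le_rfl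

/-- the invariants after `i` events -/
structure Iv (E : Nw T0) (s M0 b i : ℕ) (β : ℕ → ℕ) : Prop where
  wf : E.Wf s
  mu : 1 / 2 ^ (b + i * β M0) ≤ E.μ
  ct : ∀ l, E.ct l ≤ 2 ^ (b + i * β (M0 * (s + 1) ^ l) ^ 3)

theorem Sc.pw {C K b : ℕ} {β : ℕ → ℕ} (h : Sc s M0 C K b β) (t : ℕ) {i j : ℕ} (e : i ≤ j) :
    β t ^ i ≤ β t ^ j := Nat.pow_le_pow_right (by have := h.big t; omega) e

theorem Sc.pm {C K b : ℕ} {β : ℕ → ℕ} (h : Sc s M0 C K b β) (t : ℕ) {c : ℕ} (i j : ℕ)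
    (e : i + 1 ≤ j) (k : c ≤ β t) : c * β t ^ i ≤ β t ^ j :=
  le_trans (by rw [pow_succ, mul_comm]; exact Nat.mul_le_mul_left _ k) (h.pw t e)

theorem Iv.fin {C K b i : ℕ} {β : ℕ → ℕ} (h : Iv E s M0 b i β) (hβ : Sc s M0 C K b β) (e : i ≤ b) :
    1 / 2 ^ β M0 ^ 3 ≤ E.μ ∧ ∀ l, E.ct l ≤ 2 ^ β (M0 * (s + 1) ^ l) ^ 5 := by
  refine ⟨(half_le ?_).trans h.mu, fun l => (h.ct l).trans (two_le ?_)⟩
  · have a := hβ.pm M0 1 2 le_rfl (e.trans (hβ.b M0))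
    have c := hβ.pm M0 (c := 2) 2 3 le_rfl (by have := hβ.big M0; omega)
    have d := (hβ.b M0).trans (Nat.le_self_pow two_ne_zero _)
    rw [pow_one] at a; omega
  · set t := M0 * (s + 1) ^ l
    have a := hβ.pm t 3 4 le_rfl (e.trans (hβ.b t))
    have c := hβ.pm t (c := 2) 4 5 le_rfl (by have := hβ.big t; omega)
    have d := (hβ.b t).trans (Nat.le_self_pow (show 4 ≠ 0 by omega) _)
    omega

theorem event (h1 : NSTG) (h2 : NOLD) (h3 : NPR) (h4 : NEV) {C KB b n0 i : ℕ} {β : ℕ → ℕ}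
    (hS : SEMS (M0 * (s + 1) ^ s) C)
    (hB : ∀ (T : TS Unit) (st : T.C → ℕ) (t l b : ℕ) (κ : ℝ) (k : T.C → ℤ), 2 ≤ b → T.Ok →
      T.K = 1 → T.Stg st (M0 * (s + 1) ^ s) → Fintype.card T.C ≤ 2 ^ b → 1 / 2 ^ b ≤ κ → κ ≤ 1 →
      T.Sem st t (b ^ KB) (1 / 2 ^ b ^ KB) (1 / 2 ^ b ^ KB) → (∀ F, k F ≠ 0 → st F = t ∧ T.lev F = l) →
      1 / 2 ^ b ≤ T.sbS st t (fun _ : Fin l => ()) (fun _ => κ) k →
      ∃ q : ℕ, 1 ≤ q ∧ q ≤ 2 ^ b ^ KB ∧ T.JBS st t k q (2 ^ b ^ KB))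
    (ho : Old T0 st0 M0 s) (hβ : Sc s M0 C ((2 * C + 8) * KB + 8) b β)
    (h0 : T0.RgS st0 M0 C n0 (1 / 2 ^ n0) (1 / 2 ^ n0)) (hn0 : β M0 ^ 8 ≤ n0)
    (hC : Fintype.card T0.C ≤ 2 ^ b) (hN : Fintype.card E.N ≤ b) (hi : i ≤ b) (h : Iv E s M0 b i β)
    (bad : ∃ t, M0 < t ∧ t ≤ M0 * (s + 1) ^ s ∧ ¬ Gd E st0 M0 s C β t) :
    ∃ (E' : Nw T0) (ν : ℕ) (ρ : E.N → MvPolynomial (T0.C ⊕ E'.N) ℤ)
      (G : E.N → MvPolynomial (T0.C ⊕ E'.N) ℝ), Iv E' s M0 b (i + 1) β ∧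
      E.Hom s E' ν (Fintype.card E.N) ρ G ∧ Fintype.card E'.N + 1 = Fintype.card E.N := by
  classical
  obtain ⟨t, ⟨t1, t2, t3⟩, tm⟩ : ∃ t, (M0 < t ∧ t ≤ M0 * (s + 1) ^ s ∧ ¬ Gd E st0 M0 s C β t) ∧
      ∀ t' < t, ¬ (M0 < t' ∧ t' ≤ M0 * (s + 1) ^ s ∧ ¬ Gd E st0 M0 s C β t') :=
    ⟨Nat.find bad, Nat.find_spec bad, fun _ k => Nat.find_min bad k⟩
  obtain ⟨f1, f2⟩ := h.fin hβ hi
  obtain ⟨o, ol, -⟩ := h1 s M0 T0 st0 E ho h.wf
  have big := hβ.big t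
  have stp := hβ.step t t2 (by omega)
  set y := (β t ^ (2 * C + 8)) ^ KB with hy
  have y1 : y = β t ^ ((2 * C + 8) * KB) := (pow_mul _ _ _).symm
  have rg := asm' h1 h2 ho h.wf hβ (show M0 ≤ t - 1 by omega) (by omega) (n := y)
    ((y1.trans_le (hβ.pw t (by omega))).trans stp) h0 hn0 hN f1 f2 fun t' a b =>
      of_not_not fun z => tm t' (by omega) ⟨a, by omega, z⟩
  have sem := hS _ _ _ _ _ _ (by omega) o.stg (by positivity) (half_le_one _) rg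
  rw [show t - 1 + 1 = t by omega] at sem
  simp only [Gd, SymS, not_forall, not_le] at t3
  obtain ⟨l, col, k, k0, k1, k2, k3⟩ := t3
  obtain rfl : col = fun _ => () := Subsingleton.elim _ _
  have k4 : ∀ F, k F ≠ 0 → E.st st0 M0 s F = t ∧ E.T.lev F = l := fun F z =>
    ⟨(k1 F z).1, by rw [lev, (k1 F z).2]; simp [Finsupp.degree_single]⟩
  obtain ⟨lp, rfl⟩ : 1 ≤ l ∧ t = M0 * (s + 1) ^ l := by
    obtain ⟨F, z⟩ := Function.ne_iff.1 k0
    obtain ⟨a, b⟩ := k4 F z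
    rw [ol] at b
    cases F with
    | inl c => exact absurd (a.ge.trans (ho.stg.le c).1) (not_le.2 t1)
    | inr n => exact ⟨(h.wf.lv n).1.trans b.le, by rw [← a, ← b]; rfl⟩
  set t := M0 * (s + 1) ^ l with ht
  have cd : Fintype.card (T0.C ⊕ E.N) + 1 ≤ 2 ^ (b + 1) := by
    have : b < 2 ^ b := Nat.lt_two_pow_self
    rw [Fintype.card_sum, pow_succ]; omega
  have bb := hβ.b t
  have b2 := hβ.pm t (c := 2) 1 (2 * C + 8) (by omega) (by omega)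
  rw [pow_one] at b2
  obtain ⟨q, q1, q2, q3⟩ := hB E.T _ t l (β t ^ (2 * C + 8)) _ k (by omega) o.ok o.K o.stg
    ((Nat.le_succ _).trans (cd.trans (Nat.pow_le_pow_right two_pos (by omega))))
    (half_le (hβ.pw t (by omega))) (half_le_one _) sem k4 k3.le
  obtain ⟨d, k', b', I, g, d1, d2, d3, d4, d5, d6, d7, d8, d9, d10, d11, d12, d13⟩ :=
    h3 s M0 T0 st0 E l q _ k ho h.wf lp q1 (by positivity) k0 k4 q3
  have ls : l ≤ s := by
    obtain ⟨n, -, z⟩ := exists_ne_zero_of_sum_ne_zero (s := univ) (f := fun n => k' n * b' n)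
      (by rw [← dotProduct, d7]; exact one_ne_zero)
    exact (d5 n (left_ne_zero_of_mul z)).ge.trans (h.wf.lv n).2
  have c0 : 0 ≤ E.ct l := tsum_nonneg fun _ => (Real.exp_pos _).le
  have c1 := f2 l
  have c2 : E.ct l ^ 2 ≤ (2 ^ β t ^ 5) ^ 2 := pow_le_pow_left₀ c0 c1 2
  have e1 : (d : ℝ) ≤ 2 ^ β t ^ 6 := by
    have a : (1 : ℝ) ≤ d := by exact_mod_cast d1
    have b := d2.trans ((mul_le_mul_of_nonneg_right k2 (sq_nonneg _)).trans
      (mul_le_mul_of_nonneg_left c2 (by positivity)))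
    rw [← pow_mul, ← pow_add] at b
    have c := hβ.pm t (c := 3) 5 6 le_rfl (by omega)
    have e := hβ.pw t (show 3 ≤ 5 by omega)
    exact (le_self_pow₀ a two_ne_zero).trans (b.trans (two_le (by omega)))
  have e2 : ((d * q : ℕ) : ℝ) ^ s ≤ 2 ^ ((β t ^ 6 + y) * s) := by
    rw [pow_mul, pow_add, Nat.cast_mul]
    exact pow_le_pow_left₀ (by positivity) (mul_le_mul e1 (by exact_mod_cast q2) (by positivity)
      (by positivity)) _
  have e3 : l1 g ≤ 2 ^ ((b + 1) * s + y) := by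
    rw [pow_add, pow_mul]
    refine d13.trans (mul_le_mul_of_nonneg_right ((pow_le_pow_left₀ (by positivity)
      (by exact_mod_cast cd) _).trans (pow_le_pow_right₀ (one_le_pow₀ one_le_two) ls))
      (by positivity))
  have e4 : 1 / 2 ^ β t ^ 5 ≤ √(qf (E.A⁻¹ * E.A⁻¹ᵀ) (zc k')) := by
    refine Real.le_sqrt_of_sq_le ?_
    have : 0 < qf (E.A⁻¹ * E.A⁻¹ᵀ) (zc k') := by
      by_contra z
      nlinarith [sq_nonneg (E.ct l)]
    rw [div_pow, one_pow, div_le_iff₀ (by positivity), mul_comm]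
    exact d3.trans (mul_le_mul_of_nonneg_right c2 this.le)
  have e5 : (β t ^ 6 + y) * s + ((b + 1) * s + y) + β t ^ 5 ≤ β (t - 1) := by
    obtain ⟨z, hz⟩ : ∃ z, β t ^ ((2 * C + 8) * KB + 6) = z := ⟨_, rfl⟩
    have a1 : β t ^ 6 ≤ z := (hβ.pw t (by omega)).trans_eq hz
    have a2 : y ≤ z := y1.trans_le ((hβ.pw t (by omega)).trans_eq hz)
    have a3 : β t ^ 5 ≤ z := (hβ.pw t (by omega)).trans_eq hz
    have a4 := hβ.pm t (c := 2) 1 ((2 * C + 8) * KB + 6) (by omega) (by omega)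
    have a5 := hβ.pm t (c := s + 2) ((2 * C + 8) * KB + 6) ((2 * C + 8) * KB + 7) le_rfl (by omega)
    have a6 := hβ.pm t (c := 3) ((2 * C + 8) * KB + 7) ((2 * C + 8) * KB + 8) le_rfl (by omega)
    rw [pow_one, hz] at a4
    rw [hz] at a5
    have a7 : (β t ^ 6 + y) * s ≤ (z + z) * s := Nat.mul_le_mul_right _ (by omega)
    have a8 : (b + 1) * s ≤ z * s := Nat.mul_le_mul_right _ (by omega)
    rw [add_mul, mul_comm s] at a5
    rw [add_mul z] at a7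
    omega
  have e6 : ∀ x, (β t ^ 6 + y) * s + x ≤ β (t - 1) →
      ((d * q : ℕ) : ℝ) ^ s * (1 / 2 ^ β (t - 1)) ≤ 1 / 2 ^ x := fun x z => by
    refine (mul_le_mul_of_nonneg_right e2 (by positivity)).trans ?_
    rw [mul_one_div, div_le_div_iff₀ (by positivity) (by positivity), one_mul, ← pow_add]
    exact two_le z
  obtain ⟨E', ρ, G, g1, g2, g3, g4, g5, g6, g7⟩ := h4 s T0 E l (d * q) (1 / 2 ^ β (t - 1)) k' b' I g
    ho.ok ho.lev h.wf d5 d6 d7 (Nat.mul_pos d1 q1) d8 d9 d10 d11 d12 (by positivity)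
    (by simpa using e6 0 (by omega)) (le_trans (by
      refine (mul_le_mul (e6 ((b + 1) * s + y + β t ^ 5) (by omega)) e3
        (sum_nonneg fun _ _ => abs_nonneg _) (by positivity)).trans_eq ?_
      rw [pow_add _ _ (β t ^ 5)]; field_simp) e4)
  refine ⟨E', _, ρ, G, ⟨g1, ?_, fun j => ?_⟩, g2, g4⟩
  · rw [g3]
    refine le_trans ?_ (mul_le_mul_of_nonneg_left h.mu (by positivity))
    have := hβ.anti (show M0 ≤ t - 1 by omega)
    rw [div_mul_div_comm, one_mul, ← pow_add, add_mul]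
    exact half_le (by omega)
  · have u : ∀ x : ℝ, x ≤ 2 ^ β (M0 * (s + 1) ^ j) ^ 3 →
        x * E.ct j ≤ 2 ^ (b + (i + 1) * β (M0 * (s + 1) ^ j) ^ 3) := fun x z => by
      rw [add_mul, one_mul, ← add_assoc, pow_add, mul_comm]
      exact (mul_le_mul_of_nonneg_left z (tsum_nonneg fun _ => (Real.exp_pos _).le)).trans
        (mul_le_mul_of_nonneg_right (h.ct j) (by positivity))
    rcases lt_trichotomy j l with e | rfl | e
    · refine (g5 j e).trans (u _ ?_)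
      rw [one_div, inv_inv, ← pow_mul]
      have a : M0 * (s + 1) ^ j ≤ t - 1 := Nat.le_sub_one_of_lt
        (Nat.mul_lt_mul_of_pos_left (Nat.pow_lt_pow_right (by omega) e) ho.one)
      have c := Nat.mul_le_mul (hβ.anti a) (((R_le E j).trans hN).trans (hβ.b (M0 * (s + 1) ^ j)))
      rw [← sq] at c
      exact two_le (c.trans (hβ.pw _ (by omega)))
    · refine g6.trans (u _ (Real.sqrt_le_iff.2 ⟨by positivity, (d4.trans k2).trans ?_⟩))
      exact le_self_pow₀ (one_le_pow₀ one_le_two) two_ne_zero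
    · rw [g7 j e, ← one_mul (E.ct j)]
      exact u _ (one_le_pow₀ one_le_two)

theorem exists_sc (s M0 C K : ℕ) (hK : 2 ≤ K) : ∃ K', ∀ b, 2 ≤ b → ∃ β, Sc s M0 C K b β ∧
    β M0 ^ 8 ≤ b ^ K' := by
  set M := M0 * (s + 1) ^ s
  set c := M + 2 * C + s + 10
  refine ⟨c * K ^ M * 8, fun b hb => ⟨fun t => (b ^ c) ^ K ^ (M - t), ?_, ?_⟩⟩
  · have a : c ≤ b ^ c := Nat.lt_two_pow_self.le.trans (Nat.pow_le_pow_left hb c)
    have e : ∀ t, b ^ c ≤ (b ^ c) ^ K ^ (M - t) := fun t => Nat.le_self_pow (by positivity) _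
    refine ⟨fun t => a.trans (e t), fun t => (Nat.le_self_pow (by omega) b).trans (e t),
      fun t t' k => Nat.pow_le_pow_right (by positivity) (Nat.pow_le_pow_right (by omega) (by omega)),
      fun t k k' => ?_, hK⟩
    rw [← pow_mul, ← pow_succ, show M - (t - 1) = M - t + 1 by omega]
  · rw [pow_mul, pow_mul]
    exact Nat.pow_le_pow_left (Nat.pow_le_pow_right (by positivity)
      (Nat.pow_le_pow_right (by omega) (by omega))) 8

/-- **REG-NEW** -/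
theorem regnew_of (h1 : NSTG) (h2 : NOLD) (h3 : NPR) (h4 : NEV) (h5 : NCMP) {s M0 C : ℕ}
    (hS : SEMS (M0 * (s + 1) ^ s) C) (hB : BREL (M0 * (s + 1) ^ s)) : REGNEW s M0 C := by
  obtain ⟨KB, hB⟩ := hB
  obtain ⟨K, hK⟩ := exists_sc s M0 C ((2 * C + 8) * KB + 8) (by omega)
  refine ⟨K, fun T0 st0 E b hb ho hw hμ hC hN hc h0 => ?_⟩
  obtain ⟨β, hβ, hn0⟩ := hK b hb
  set D := Fintype.card E.N
  have D1 : (1 : ℝ) ≤ D + 1 := by simp
  have key : ∀ (j : ℕ) (E' : Nw T0) (i ν : ℕ) ρ G, Fintype.card E'.N = j → j + i ≤ D →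
      E.Hom s E' ν ((D + 1) ^ (s * i)) ρ G → Iv E' s M0 b i β → ∃ (E' : Nw T0) (i ν : ℕ)
        (ρ : E.N → MvPolynomial (T0.C ⊕ E'.N) ℤ) (G : E.N → MvPolynomial (T0.C ⊕ E'.N) ℝ),
        Fintype.card E'.N ≤ D ∧ i ≤ D ∧ E.Hom s E' ν ((D + 1) ^ (s * i)) ρ G ∧ Iv E' s M0 b i β ∧
        ∀ t, M0 < t → t ≤ M0 * (s + 1) ^ s → Gd E' st0 M0 s C β t := fun j => by
    induction j using Nat.strong_induction_on with | h j ih => ?_
    intro E' i ν ρ G a1 a2 a3 a4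
    by_cases bad : ∃ t, M0 < t ∧ t ≤ M0 * (s + 1) ^ s ∧ ¬ Gd E' st0 M0 s C β t
    · obtain ⟨E2, ν', ρ', G', b1, b2, b3⟩ := event h1 h2 h3 h4 hS hB ho hβ h0 hn0 hC (by omega)
        (by omega) a4 bad
      obtain ⟨ρ2, G2, b4⟩ := h5 s M0 T0 st0 E E' E2 ν ν' _ (D + 1) ρ G ρ' G' ho hw a4.wf b1.wf D1 a3
        (hom_mono b2 (by exact_mod_cast (by omega)))
      exact ih _ (by omega) E2 (i + 1) _ ρ2 G2 rfl (by omega) (by rwa [mul_add_one, pow_add]) b1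
    · exact ⟨E', i, ν, ρ, G, by omega, by omega, a3, a4, fun t x y =>
        of_not_not fun z => bad ⟨t, x, y, z⟩⟩
  obtain ⟨E', i, ν, ρ, G, a1, a2, a3, a4, a5⟩ := key _ E 0 1 _ _ rfl le_rfl
    (by simpa using hom_refl E s) ⟨hw, by simpa using hμ, by simpa using hc⟩
  obtain ⟨f1, f2⟩ := a4.fin hβ (a2.trans hN)
  have le : M0 ≤ M0 * (s + 1) ^ s := Nat.le_mul_of_pos_right _ (by positivity)
  refine ⟨E', ν, ρ, G, a4.wf, hom_mono a3 (pow_le_pow_right₀ D1 (Nat.mul_le_mul_left _ a2)),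
    (half_le ((hβ.pw M0 (by omega)).trans hn0)).trans f1, fun l => (f2 l).trans (two_le ?_),
    asm' h1 h2 ho a4.wf hβ le le_rfl (hβ.b _) h0 hn0 (a1.trans hN) f1 f2 a5⟩
  exact ((Nat.pow_le_pow_left (hβ.anti (Nat.le_mul_of_pos_right _ (by positivity))) 5).trans
    (hβ.pw M0 (by omega))).trans hn0

end Crest.Agent.N49.Tw.Rn

end
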