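import Crest.Agent.N49.Rn.Defs
import Crest.Agent.N49.Tw.Api
import Crest.Agent.N49.En.CntA

/-! # Row 49 (helper21): a trivial staged symbol as a homogeneous identity -/

set_option autoImplicit false

open Matrix MvPolynomial Finset

noncomputable section

namespace Crest.Agent.N49.Tw

open Po _root_.Crest.Agent.N49.Rf

theorem l1_hom {C : Type} [Fintype C] [DecidableEq C] {w : C → ℕ} (hw : ∀ c, 0 < w c) {l : ℕ}
    {g : MvPolynomial C ℝ} (hg : g.IsWeightedHomogeneous w l) {r : ℝ} (r0 : 0 ≤ r)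
    (h : ∀ m, |coeff m g| ≤ r) : l1 g ≤ (Fintype.card C + 1) ^ l * r := by
  refine (sum_le_card_nsmul _ _ r fun m _ => h m).trans ?_
  rw [nsmul_eq_mul]
  refine mul_le_mul_of_nonneg_right ?_ r0
  exact_mod_cast (card_le_card fun m hm => En.mem_full.2
    (hg (mem_support_iff.1 hm) ▸ deg_le_weight hw m)).trans (En.card_full C l)

theorem hom_ren {C C' R : Type} [CommRing R] {w : C' → ℕ} (f : C → C') {n : ℕ}
    {P : MvPolynomial C R} (h : P.IsWeightedHomogeneous (fun c => w (f c)) n) :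
    (rename f P).IsWeightedHomogeneous w n := by
  rw [rename_eq_aeval]
  exact hom_aeval (fun c => isWeightedHomogeneous_X _ _ _) h

theorem TS.Tri.nhj0 {U : TS Unit} (h : U.Tri) {w : U.C → ℕ} (hw : ∀ c, 0 < w c)
    (hΦ : ∀ c, (U.Φ c).IsWeightedHomogeneous w (w c)) (hb : ∀ c c', U.lev c = U.lev c' → w c = w c')
    {t l q : ℕ} {r : ℝ} {k : U.C → ℤ} (r0 : 0 ≤ r) (hk : ∀ F, k F ≠ 0 → U.lev F = t ∧ w F = l)
    (hJ : (U.lt t).Triv q r
      (aeval (glue (fun c => U.lev c < t) X fun _ => (0 : MvPolynomial _ ℝ)) (U.thp k))) :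
    ∃ (I : MvPolynomial U.C ℤ) (g : MvPolynomial U.C ℝ), I.IsWeightedHomogeneous w l ∧
      g.IsWeightedHomogeneous w l ∧ (∀ c ∈ I.vars, U.lev c < t) ∧ (∀ c ∈ g.vars, U.lev c < t) ∧
      l1 g ≤ (Fintype.card U.C + 1) ^ l * r ∧
      U.thp k = (q : ℝ)⁻¹ • map (Int.castRingHom ℝ) I + aeval U.Φ g := by
  obtain ⟨F, hF⟩ : ∃ F : U.C → MvPolynomial {c // U.lev c < t} ℝ,
      F = glue (fun c => U.lev c < t) X fun _ => 0 := ⟨_, rfl⟩
  have hF' : (glue (fun c => U.lev c < t) X fun c => MvPolynomial.C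
      (((0 : U.C → ℤ) c : ℤ) : ℝ)) = F := by rw [hF]; simp
  obtain ⟨I, g, e, hr⟩ : ∃ (I : MvPolynomial {c // U.lev c < t} ℤ)
      (g : MvPolynomial {c // U.lev c < t} ℝ), aeval F (U.thp k) = (q : ℝ)⁻¹ •
      map (Int.castRingHom ℝ) I + aeval (fun c : {c // U.lev c < t} => aeval F (U.Φ c.1)) g ∧
      ∑ m ∈ g.support, coeff m g ^ 2 ≤ r ^ 2 := by
    obtain ⟨I, g, e, hr⟩ := hJ
    refine ⟨I, g, ?_, hr⟩
    conv_rhs => rw [← hF']
    rw [hF]
    exact e
  have hg : ∀ c, (F c).IsWeightedHomogeneous (fun c : {c // U.lev c < t} => w c.1) (w c) :=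
    fun c => by
      rw [hF, glue]
      split_ifs with p
      · exact isWeightedHomogeneous_X _ _ _
      · exact isWeightedHomogeneous_zero _ _ _
  have ht : (U.thp k).IsWeightedHomogeneous w l := by
    refine IsWeightedHomogeneous.sum _ _ _ fun c _ => ?_
    by_cases e : k c = 0
    · rw [e, Int.cast_zero, C_0, zero_mul]; exact isWeightedHomogeneous_zero _ _ _
    refine IsWeightedHomogeneous.C_mul (IsWeightedHomogeneous.sub ?_
      (IsWeightedHomogeneous.sum _ _ _ fun c' _ => ?_)) _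
    · rw [← (hk c e).2]; exact isWeightedHomogeneous_X _ _ _
    · by_cases e2 : U.lev c = U.lev c'
      · rw [← (hk c e).2, hb _ _ e2]; exact (hΦ c').C_mul _
      · rw [blk_inv U.blk_A c c' e2, C_0, zero_mul]; exact isWeightedHomogeneous_zero _ _ _
  have e1 := congrArg (weightedHomogeneousComponent (fun c : {c // U.lev c < t} => w c.1) l) e
  rw [(hom_aeval hg ht).weightedHomogeneousComponent_same, map_add, map_smul, N49.Rf.comp_map,
    comp_aeval_hom fun c : {c // U.lev c < t} => hom_aeval hg (hΦ c.1)] at e1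
  have hI := weightedHomogeneousComponent_isWeightedHomogeneous
    (w := fun c : {c // U.lev c < t} => w c.1) l I
  have hG := weightedHomogeneousComponent_isWeightedHomogeneous
    (w := fun c : {c // U.lev c < t} => w c.1) l g
  have cG : ∀ m, |coeff m (weightedHomogeneousComponent
      (fun c : {c // U.lev c < t} => w c.1) l g)| ≤ r := fun m => by
    rw [coeff_weightedHomogeneousComponent]
    split_ifs
    · by_cases z : m ∈ g.support
      · exact abs_le_of_sq_le_sq ((single_le_sum (f := fun m => coeff m g ^ 2)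
          (fun _ _ => sq_nonneg _) z).trans hr) r0
      · rwa [notMem_support_iff.1 z, abs_zero]
    · rwa [abs_zero]
  generalize weightedHomogeneousComponent (fun c : {c // U.lev c < t} => w c.1) l I = I at *
  generalize weightedHomogeneousComponent (fun c : {c // U.lev c < t} => w c.1) l g = g at e1 hG cG
  refine ⟨rename Subtype.val I, rename Subtype.val g, hom_ren _ hI, hom_ren _ hG,
    fun c hc => ?_, fun c hc => ?_, l1_hom hw (hom_ren _ hG) r0 fun m => ?_,
    MvPolynomial.funext fun y => ?_⟩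
  · obtain ⟨c', -, rfl⟩ := mem_image.1 (vars_rename _ _ hc)
    exact c'.2
  · obtain ⟨c', -, rfl⟩ := mem_image.1 (vars_rename _ _ hc)
    exact c'.2
  · by_cases z : coeff m (rename Subtype.val g) = 0
    · rwa [z, abs_zero]
    · obtain ⟨u, rfl, -⟩ := coeff_rename_ne_zero _ _ _ z
      rw [coeff_rename_mapDomain _ Subtype.val_injective]
      exact cG u
  · have e2 := congrArg (eval fun c : {c // U.lev c < t} => y c.1) e1
    rw [eval_aeval, map_add, eval_aeval, smul_eval] at e2
    obtain ⟨y', hy⟩ : ∃ y' : U.C → ℝ,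
      y' = fun c => eval (fun c : {c // U.lev c < t} => y c.1) (F c) := ⟨_, rfl⟩
    have a : ∀ j, U.lev j < t → y' j = y j := fun j hj => by simp [hy, hF, glue, hj]
    have c1 : (fun c : {c // U.lev c < t} => eval (fun c : {c // U.lev c < t} => y c.1)
        (aeval F (U.Φ c.1))) = fun c => eval y (U.Φ c.1) := funext fun c => by
      rw [eval_aeval, ← hy]
      exact h.u_le (y := y') (y' := y) fun j hj => a j (lt_of_le_of_lt hj c.2)
    rw [c1, ← hy] at e2
    rw [map_add, smul_eval, eval_aeval, map_rename, eval_rename, eval_rename]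
    refine Eq.trans ?_ e2
    rw [TS.eval_thp, TS.eval_thp]
    refine sum_congr rfl fun c _ => ?_
    by_cases z : k c = 0
    · simp [zc, z]
    · rw [h.th_low (y := y) (y' := y') fun j hj => (a j ((hk c z).1 ▸ hj)).symm]

theorem TS.Ok.hlev {σ : Type} {T : TS σ} (h : T.Ok) (c : T.C) :
    (T.Φ c).IsWeightedHomogeneous T.lev (T.lev c) := fun m hm => by
  rw [TS.weight_lev, h.hom c hm, TS.lev]

theorem nhj : NHJ := fun s M T st t l q r k h r0 hk hJ => by
  have := h.stg.tri.nhj0 (w := T.lev) h.ok.toTri.lev_pos h.ok.hlev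
    (fun c c' e => h.stg.lev c c' (by rwa [TS.stg_lev'] at e)) r0
    (fun F z => by rw [TS.stg_lev']; exact hk F z) hJ
  rwa [TS.stg_lev'] at this

end Crest.Agent.N49.Tw

end
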