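import Crest.Agent.N49.Rn.Lin
import Crest.Agent.N49.Rf.Wl

/-! Row 49 (helper42): `l1` calculus, scaling of homogeneous polynomials. -/

set_option autoImplicit false
set_option linter.unusedSectionVars false
open Matrix MvPolynomial Finset
noncomputable section
namespace Crest.Agent.N49.Tw
open Po
namespace Nv

section
variable {C C' : Type} {P Q : MvPolynomial C ℝ}

theorem l1_nn (P : MvPolynomial C ℝ) : 0 ≤ l1 P := sum_nonneg fun _ _ => abs_nonneg _
theorem l1_eq {S : Finset (C →₀ ℕ)} (h : P.support ⊆ S) : l1 P = ∑ m ∈ S, |coeff m P| :=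
  sum_subset h fun m _ k => by rw [notMem_support_iff.1 k, abs_zero]
theorem l1_ad (P Q : MvPolynomial C ℝ) : l1 (P + Q) ≤ l1 P + l1 Q := by
  classical
  rw [l1_eq support_add, l1_eq (P := P) subset_union_left, l1_eq (P := Q) subset_union_right,
    ← sum_add_distrib]
  exact sum_le_sum fun m _ => by rw [coeff_add]; exact abs_add_le _ _
theorem l1_sm (c : ℝ) (P : MvPolynomial C ℝ) : l1 (c • P) = |c| * l1 P := by
  rw [l1_eq support_smul, l1, mul_sum]
  exact sum_congr rfl fun m _ => by rw [coeff_smul, smul_eq_mul, abs_mul]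
theorem l1_mo (m : C →₀ ℕ) (a : ℝ) : l1 (monomial m a) = |a| := by
  classical
  rw [l1_eq support_monomial_subset, sum_singleton, coeff_monomial, if_pos rfl]
theorem l1_su {ι : Type} (s : Finset ι) (f : ι → MvPolynomial C ℝ) :
    l1 (∑ i ∈ s, f i) ≤ ∑ i ∈ s, l1 (f i) :=
  le_sum_of_subadditive l1 (by simp [l1]) l1_ad s f
theorem l1_mu (P Q : MvPolynomial C ℝ) : l1 (P * Q) ≤ l1 P * l1 Q := by
  conv_lhs => rw [P.as_sum, Q.as_sum, sum_mul_sum]
  conv_rhs => rw [l1, l1, sum_mul_sum]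
  exact (l1_su _ _).trans (sum_le_sum fun m _ => (l1_su _ _).trans (sum_le_sum fun m' _ => by
    rw [monomial_mul, l1_mo, abs_mul]))
theorem l1_x (c : C) : l1 (X c : MvPolynomial C ℝ) = 1 := by rw [X, l1_mo, abs_one]
theorem l1_ae {f : C → MvPolynomial C' ℝ} {τ : ℝ} (h1 : τ ≤ 1) (hf : ∀ v, l1 (f v) ≤ τ)
    (h : constantCoeff P = 0) : l1 (aeval f P) ≤ τ * l1 P := by
  classical
  have one : l1 (1 : MvPolynomial C' ℝ) = 1 := (l1_mo 0 1).trans abs_one
  have le : ∀ m : C →₀ ℕ, l1 (m.prod fun v k => f v ^ k) ≤ 1 := fun m =>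
    prod_induction _ (l1 · ≤ 1) (fun a b x y => (l1_mu a b).trans (mul_le_one₀ x (l1_nn _) y)) one.le
      fun v _ => by
        induction m v with
        | zero => exact one.le
        | succ k ih =>
          exact (congrArg l1 (pow_succ (f v) k)).trans_le ((l1_mu _ _).trans
            (mul_le_one₀ ih (l1_nn _) ((hf v).trans h1)))
  conv_lhs => rw [P.as_sum, map_sum]
  conv_rhs => rw [l1, mul_sum]
  refine (l1_su _ _).trans (sum_le_sum fun m hm => ?_)
  obtain ⟨v, hv⟩ := Finsupp.support_nonempty_iff.2 fun e : m = 0 => mem_support_iff.1 hm (e ▸ h)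
  have e : m = (m - Finsupp.single v 1) + Finsupp.single v 1 := (tsub_add_cancel_of_le
    (Finsupp.single_le_iff.2 (Nat.one_le_iff_ne_zero.2 (Finsupp.mem_support_iff.1 hv)))).symm
  rw [aeval_monomial, ← Algebra.smul_def, l1_sm, mul_comm τ]
  refine mul_le_mul_of_nonneg_left ?_ (abs_nonneg _)
  rw [e, Finsupp.prod_add_index' (fun _ => pow_zero _) fun _ _ _ => pow_add _ _ _,
    Finsupp.prod_single_index (h := fun x k => f x ^ k) (pow_zero _), pow_one]
  exact (l1_mu _ _).trans ((mul_le_of_le_one_left (l1_nn _) (le _)).trans (hf v))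

theorem ae_sc {w : C → ℕ} {n : ℕ} (h : P.IsWeightedHomogeneous w n) (t : ℝ)
    (f : C → MvPolynomial C' ℝ) : aeval (fun v => t ^ w v • f v) P = t ^ n • aeval f P := by
  conv_lhs => rw [P.as_sum, map_sum]
  conv_rhs => rw [P.as_sum, map_sum, smul_sum]
  refine sum_congr rfl fun m hm => ?_
  rw [← h (mem_support_iff.1 hm), aeval_monomial, aeval_monomial, ← mul_smul_comm]
  simp only [Finsupp.prod, smul_pow, prod_smul, Finsupp.weight_apply, Finsupp.sum, smul_eq_mul,
    ← pow_mul, prod_pow_eq_pow_sum, mul_comm (w _)]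

theorem ae_cg {f g : C → MvPolynomial C' ℝ} (h : ∀ v ∈ P.vars, f v = g v) :
    aeval f P = aeval g P :=
  hom_congr_vars (f₁ := (aeval f).toRingHom) (f₂ := (aeval g).toRingHom) (by ext; simp)
    (fun v k _ => by simpa using h v k) rfl

theorem hsm {R : Type} [CommRing R] {w : C → ℕ} {n : ℕ} {P : MvPolynomial C R}
    (h : P.IsWeightedHomogeneous w n) (a : R) : (a • P).IsWeightedHomogeneous w n := by
  rw [smul_eq_C_mul]; exact h.C_mul a

theorem hmap {w : C → ℕ} {n : ℕ} {P : MvPolynomial C ℤ} (h : P.IsWeightedHomogeneous w n) :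
    (map (Int.castRingHom ℝ) P).IsWeightedHomogeneous w n := fun m k =>
  h fun e => k (by rw [coeff_map, e, map_zero])

theorem sum_st {ι M : Type} [Fintype ι] [AddCommMonoid M] {p : ι → Prop} [DecidablePred p]
    {f : ι → M} (h : ∀ i, ¬ p i → f i = 0) : ∑ i, f i = ∑ i : {i // p i}, f i := by
  rw [← Fintype.sum_subtype_add_sum_subtype p, Fintype.sum_eq_zero _ fun i : {i // ¬ p i} => h _ i.2,
    add_zero]
end

end Nv
end Crest.Agent.N49.Tw
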